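import Crest.Agent.X262.PL.Fs
import Crest.Agent.X262.Man.Th

/-!
# Row 262, PL (helper92), part C1: the first Chern class

* `fa P f` : an ambient function which induces the rational function `f`; `ag x f`;
* `Cn P a g α c` : local connection forms `α x` for the generators `g x` of `a`, curvature `c`;
  `Crv P a c` : `c` is the curvature of a connection on `O(a)`;
* `c1P P a`, `Crv.c1_eq`, `exists_crv`, `crv_mxf`, `crv_oP`, `c1P_oP`, `c1P_mem`;
* `c1 X a`, `c1Ax : C1Ax c1`.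
-/

set_option autoImplicit false
set_option linter.unusedSectionVars false

open Set Filter Topology Module
open scoped ContDiff
open Crest.Agent.R208.F Crest.Agent.R208.FI Crest.Agent.R208.CW Crest.Agent.R208.T
open Crest.Agent.R257.PN_835 (HC nsq pm pm_smul)
open Crest.Agent.X277 Crest.Agent.X277.Lef Crest.Agent.X277.AN.G1 Crest.Agent.X277.BD
  Crest.Agent.X277.BD.Br
open Crest.Agent.X262.Man

noncomputable section

namespace Crest.Agent.X262.PL

variable {F K : Type} [Field F] [Algebra ℂ F] [Field K] [Algebra ℂ K] {P : PModel ℂ F}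
  {P' : PModel ℂ K} {x : Pts P} {f f' : F}

/-- an ambient function which induces the rational function `f` where it is regular -/
def fa (P : PModel ℂ F) (f : F) : Hm P.N → ℂ :=
  ((em P).exists_ext_on (isOpen_reg f) (smOn_ev (an P) f)).choose

theorem fa_sm (hf : f ∈ (lp x).O) : ContDiffAt ℝ ∞ (fa P f) (jP P x) :=
  ((em P).exists_ext_on (isOpen_reg f) (smOn_ev (an P) f)).choose_spec.1 _ ((em P).mem_op.2 hf)

theorem fa_j (hf : f ∈ (lp x).O) : fa P f (jP P x) = ev f x :=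
  ((em P).exists_ext_on (isOpen_reg f) (smOn_ev (an P) f)).choose_spec.2 x hf

theorem fa_diff (hf : f ∈ (lp x).O) : DifferentiableAt ℝ (fa P f) (jP P x) :=
  (fa_sm hf).differentiableAt (by simp)

theorem ev_XP {p : Hm P.N → Prop} :
    (∀ᶠ q in 𝓝[XP P] (jP P x), p q) ↔ ∀ᶠ y in 𝓝 x, p (jP P y) := eventually_X (em P)

theorem ang_fa_sm (hf : ev f x ≠ 0) : ContDiffAt ℝ ∞ (ang (fa P f)) (jP P x) :=
  contDiffAt_ang (fa_sm (LP.mem_of_ne hf)) (le_refl _) (by rwa [fa_j (LP.mem_of_ne hf)])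

theorem d_ang_fa (hf : ev f x ≠ 0) : d (ang (fa P f)) (jP P x) = 0 :=
  d_ang ((fa_sm (LP.mem_of_ne hf)).of_le two_le) (by rwa [fa_j (LP.mem_of_ne hf)])

/-- restriction to the tangent space at a point -/
abbrev rP (x : Pts P) : Ext (Hm P.N) →ₐ[ℝ] Ext (Tan (XP P) (jP P x)) := res (XP P) (jP P x)

/-- `d arg f / 2 π` at a point -/
def ag (x : Pts P) (f : F) : Ext (Tan (XP P) (jP P x)) := rP x (ang (fa P f) (jP P x))

theorem ag_eq (hf : f ∈ (lp x).O) {z : Hm P.N → ℂ} (hz : DifferentiableAt ℝ z (jP P x))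
    (h : ∀ᶠ y in 𝓝 x, z (jP P y) = ev f y) : rP x (ang z (jP P x)) = ag x f := by
  refine res_pull_congr _ (jP_mem x) hz (fa_diff hf) (ev_XP.2 ?_)
  filter_upwards [h, eventually_mem hf] with y h1 h2
  rw [h1, fa_j h2]

theorem ag_mul (hf : ev f x ≠ 0) (hf' : ev f' x ≠ 0) : ag x (f * f') = ag x f + ag x f' := by
  have h1 := LP.mem_of_ne hf
  have h2 := LP.mem_of_ne hf'
  rw [ag, ag, ag, ← map_add, ← ang_mul (fa_diff h1) (fa_diff h2) (by rwa [fa_j h1])
    (by rwa [fa_j h2])]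
  refine (ag_eq (mul_mem h1 h2) ((fa_diff h1).fun_mul (fa_diff h2)) ?_).symm
  filter_upwards [eventually_mem h1, eventually_mem h2] with y k1 k2
  rw [fa_j k1, fa_j k2, ev, ev, ev, LP.v_mul _ k1 k2]

theorem ag_one : ag x (1 : F) = 0 := by
  have h : ev (1 : F) x ≠ 0 := by simp
  simpa using ag_mul h h

theorem ag_inv (hf : ev f x ≠ 0) : ag x f⁻¹ = - ag x f := by
  have h := ag_mul hf (f' := f⁻¹) (by rw [ev, LP.v_inv hf]; exact inv_ne_zero hf)
  rw [mul_inv_cancel₀ (LP.ne_zero_of_ne hf), ag_one] at h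
  exact (neg_eq_of_add_eq_zero_right h.symm).symm

variable {a a' : BD ℂ F} {g g' : Pts P → F} {α α' : Pts P → Hm P.N → Ext (Hm P.N)}
  {c c' : Hm P.N → Ext (Hm P.N)}

theorem ag_tr {g₁ g₂ g₃ : F} (h1 : At a x g₁) (h2 : At a x g₂) (h3 : At a x g₃) :
    ag x (g₁ / g₃) = ag x (g₁ / g₂) + ag x (g₂ / g₃) := by
  rw [← ag_mul (h1.ev_div_ne h2) (h2.ev_div_ne h3), div_mul_div_cancel₀ h2.ne]

theorem ag_pull (μ : Mor P' P) {y : Pts P'} (hf : f ∈ (lp (μ.map y)).O) :
    rP y (pull (ambM μ) (ang (fa P f)) (jP P' y)) = ag y (μ.p.π f) := by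
  have h1 := (contDiff_ambM μ).differentiable (by simp) (jP P' y)
  have h2 : DifferentiableAt ℝ (fa P f) (ambM μ (jP P' y)) := by rw [ambM_j]; exact fa_diff hf
  rw [ang_comp h1 h2]
  refine ag_eq (μ.π_mem hf) (h2.comp _ h1) ?_
  filter_upwards [μ.continuous.continuousAt.eventually (eventually_mem hf)] with z hz
  rw [ambM_j, fa_j hz, μ.ev_map hz]

theorem rP_pull (μ : Mor P' P) {y : Pts P'} {v w : Hm P.N → Ext (Hm P.N)}
    (h : rP (μ.map y) (v (jP P (μ.map y))) = rP (μ.map y) (w (jP P (μ.map y)))) :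
    rP y (pull (ambM μ) v (jP P' y)) = rP y (pull (ambM μ) w (jP P' y)) :=
  res_pull ((contDiff_ambM μ).differentiable (by simp) _) (smapM μ).maps (by rwa [ambM_j])

/-! ### connections -/

/-- local connection forms `α x` for the generators `g x` of `a`, with curvature `c` -/
structure Cn (P : PModel ℂ F) (a : BD ℂ F) (g : Pts P → F) (α : Pts P → Hm P.N → Ext (Hm P.N))
    (c : Hm P.N → Ext (Hm P.N)) : Prop where
  sm : Sm (XP P) c
  deg : Hom 2 c
  gen : ∀ x, At a x (g x)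
  one : ∀ x, Hom 1 (α x)
  loc : ∀ x, ∀ᶠ y in 𝓝 x, ContDiffAt ℝ ∞ (α x) (jP P y) ∧
    rP y (d (α x) (jP P y) + c (jP P y)) = 0 ∧
    rP y (α x (jP P y)) = rP y (α y (jP P y)) + ag y (g x / g y)

/-- `c` is the curvature of a connection on `O(a)` -/
def Crv (P : PModel ℂ F) (a : BD ℂ F) (c : Hm P.N → Ext (Hm P.N)) : Prop := ∃ g α, Cn P a g α c

/-- the connection form in the trivialisation `u` -/
def om (g : Pts P → F) (α : Pts P → Hm P.N → Ext (Hm P.N)) (y : Pts P) (u : F) :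
    Ext (Tan (XP P) (jP P y)) := rP y (α y (jP P y)) + ag y (u / g y)

namespace Cn

variable (h : Cn P a g α c)
include h

theorem om_chg {u u' : F} (hu : At a x u) (hu' : At a x u') :
    om g α x u' = om g α x u + ag x (u' / u) := by
  rw [om, om, ag_tr hu' hu (h.gen x), add_comm (ag x _), add_assoc]

theorem loc' {u : F} (hu : At a x u) : ∃ β : Hm P.N → Ext (Hm P.N), Hom 1 β ∧ ∀ᶠ y in 𝓝 x,
    At a y u ∧ ContDiffAt ℝ ∞ β (jP P y) ∧ rP y (d β (jP P y) + c (jP P y)) = 0 ∧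
      rP y (β (jP P y)) = om g α y u := by
  refine ⟨fun q => α x q + ang (fa P (u / g x)) q, (h.one x).add (hom_ang _), ?_⟩
  filter_upwards [h.loc x, hu.eventually, (h.gen x).eventually] with y h1 h2 h3
  have h4 := ang_fa_sm (h2.ev_div_ne h3)
  refine ⟨h2, h1.1.add h4, ?_, ?_⟩
  · rw [d_add (h1.1.differentiableAt (by simp)) (h4.differentiableAt (by simp)),
      d_ang_fa (h2.ev_div_ne h3), add_zero, h1.2.1]
  · rw [map_add, h1.2.2, om, ag_tr h2 h3 (h.gen y), add_assoc, add_comm (ag y (g x / g y))]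
    rfl

theorem ec : EC (XP P) c := by
  refine EC.of_hom (j := 1) h.sm ?_ h.deg
  rintro _ ⟨x, rfl⟩
  have h1 := (h.loc x).self_of_nhds.1
  have h2 : DifferentiableAt ℝ (d (α x)) (jP P x) :=
    (contDiffAt_d (m := 1) (h1.of_le two_le) (by norm_num)).differentiableAt (by simp)
  have h3 := h.sm.diff (jP_mem x)
  have h4 := res_d_zero (subP P) (jP_mem x) (h2.fun_add h3)
    (ev_XP.2 ((h.loc x).mono fun y hy => hy.2.1))
  rwa [d_add h2 h3, d_d (h1.of_le two_le), zero_add] at h4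

theorem coh (h' : Cn P a g' α' c') : Coh (XP P) c c' := by
  have key : ∀ x, ∃ β β' : Hm P.N → Ext (Hm P.N), ∀ᶠ y in 𝓝 x, ContDiffAt ℝ ∞ β (jP P y) ∧
      ContDiffAt ℝ ∞ β' (jP P y) ∧ rP y (d β (jP P y) + c (jP P y)) = 0 ∧
      rP y (d β' (jP P y) + c' (jP P y)) = 0 ∧
      rP y (β' (jP P y) - β (jP P y)) = om g' α' y (g y) - om g α y (g y) := fun x => by
    obtain ⟨β, -, h1⟩ := h.loc' (h.gen x)
    obtain ⟨β', -, h2⟩ := h'.loc' (h.gen x)
    refine ⟨β, β', ?_⟩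
    filter_upwards [h1, h2] with y k1 k2
    refine ⟨k1.2.1, k2.2.1, k1.2.2.1, k2.2.2.1, ?_⟩
    rw [map_sub, k1.2.2.2, k2.2.2.2, h.om_chg (h.gen y) k1.1, h'.om_chg (h.gen y) k1.1,
      add_sub_add_right_eq_sub]
  obtain ⟨ξ, hξ⟩ := glue (em P) isOpen_univ
    (t := fun y => (rP y).toLinearMap ⁻¹' {om g' α' y (g y) - om g α y (g y)})
    (fun y _ => (convex_singleton _).linear_preimage _) fun x _ => by
      obtain ⟨β, β', h1⟩ := key x
      exact ⟨fun q => β' q - β q, h1.mono fun y hy => ⟨hy.2.1.sub hy.1, hy.2.2.2.2⟩⟩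
  refine ⟨ξ, (em P).forall_X.2 fun x => (hξ x trivial).1, eqv_iff.2 ?_⟩
  rintro _ ⟨x, rfl⟩
  obtain ⟨β, β', h1⟩ := key x
  obtain ⟨k1, k2, k3, k4, -⟩ := h1.self_of_nhds
  replace k1 := k1.differentiableAt (by simp)
  replace k2 := k2.differentiableAt (by simp)
  have h2 := res_d_congr (em P) ((hξ x trivial).1.differentiableAt (by simp)) (k2.fun_sub k1)
    (h1.mono fun y hy => Eq.trans (hξ y trivial).2 hy.2.2.2.2.symm)
  rw [map_add, add_eq_zero_iff_eq_neg] at k3 k4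
  refine Eq.trans ?_ h2.symm
  change rP x (c (jP P x) - c' (jP P x)) = rP x (d (fun q => β' q - β q) (jP P x))
  rw [d_sub k2 k1, map_sub, map_sub, k3, k4, neg_sub_neg]

theorem add (h' : Cn P a' g' α' c') : Cn P (a + a') (fun x => g x * g' x)
    (fun x q => α x q + α' x q) (c + c') := by
  refine ⟨h.sm.add h'.sm, h.deg.add h'.deg, fun x => (h.gen x).add (h'.gen x),
    fun x => (h.one x).add (h'.one x), fun x => ?_⟩
  filter_upwards [h.loc x, h'.loc x, (h.gen x).eventually, (h'.gen x).eventually]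
    with y h1 h2 h3 h4
  refine ⟨h1.1.add h2.1, ?_, ?_⟩
  · rw [d_add (h1.1.differentiableAt (by simp)) (h2.1.differentiableAt (by simp)), Pi.add_apply,
      add_add_add_comm, map_add, h1.2.1, h2.2.1, add_zero]
  · rw [map_add, map_add, h1.2.2, h2.2.2, ← div_mul_div_comm,
      ag_mul (h3.ev_div_ne (h.gen y)) (h4.ev_div_ne (h'.gen y)), add_add_add_comm]

theorem neg : Cn P (-a) (fun x => (g x)⁻¹) (fun x q => - α x q) (-c) := by
  refine ⟨h.sm.neg, h.deg.neg, fun x => (h.gen x).neg, fun x => (h.one x).neg, fun x => ?_⟩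
  filter_upwards [h.loc x, (h.gen x).eventually] with y h1 h3
  refine ⟨h1.1.neg, ?_, ?_⟩
  · rw [d_neg, Pi.neg_apply, ← neg_add, map_neg, h1.2.1, neg_zero]
  · rw [map_neg, map_neg, h1.2.2, ← inv_div', ag_inv (h3.ev_div_ne (h.gen y)), neg_add]

theorem pull (μ : Mor P' P) {b : BD ℂ K} {u : F}
    (hb : ∀ (y : Pts P') (f : F), At a (μ.map y) f → At b y (μ.p.π (f / u))) :
    Cn P' b (fun y => μ.p.π (g (μ.map y) / u)) (fun y => pull (ambM μ) (α (μ.map y)))
      (pull (ambM μ) c) := by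
  refine ⟨h.sm.pull (smapM μ), h.deg.pull, fun x => hb x _ (h.gen _), fun x => (h.one _).pull,
    fun x => ?_⟩
  filter_upwards [μ.continuous.continuousAt.eventually (h.loc (μ.map x)),
    μ.continuous.continuousAt.eventually (h.gen (μ.map x)).eventually] with y h1 h2
  have h3 : ContDiffAt ℝ ∞ (α (μ.map x)) (ambM μ (jP P' y)) := by rw [ambM_j]; exact h1.1
  have h4 := (hb y _ (h.gen _)).ne
  have h5 := (hb y _ h2).ne
  have h6 : u ≠ 0 := fun h0 => h4 (by rw [h0, div_zero, Plc.π_zero])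
  refine ⟨contDiffAt_pull (contDiff_ambM μ).contDiffAt (le_refl _) h3, ?_, ?_⟩
  · rw [d_pull ((contDiff_ambM μ).contDiffAt.of_le two_le) (h3.differentiableAt (by simp)),
      ← pull_add]
    refine (rP_pull μ (w := fun _ => 0) (h1.2.1.trans (map_zero _).symm)).trans ?_
    rw [R208.F.pull, map_zero, map_zero]
  · rw [← Plc.π_div (Plc.mem_of_ne h5) h4, div_div_div_cancel_right₀ h6,
      ← ag_pull μ (LP.mem_of_ne (h2.ev_div_ne (h.gen _))), ← map_add, ← pull_add]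
    exact rP_pull μ (h1.2.2.trans (map_add _ _ _).symm)

end Cn

theorem cn_pr (hf : f ≠ 0) : Cn P (pr ℂ f) (fun _ => f) (fun _ => 0) 0 :=
  ⟨Sm.zero, Hom.zero, fun x => at_pr x hf, fun _ => Hom.zero, fun _ =>
    Eventually.of_forall fun y => ⟨contDiffAt_const, by rw [d_zero']; simp,
      by rw [div_self hf, ag_one, add_zero]⟩⟩

theorem Crv.ec (h : Crv P a c) : EC (XP P) c := h.choose_spec.choose_spec.ec

theorem Crv.deg (h : Crv P a c) : Hom 2 c := h.choose_spec.choose_spec.deg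

theorem Crv.on (h : Crv P a c) : a ∈ On P := fun x => ⟨_, h.choose_spec.choose_spec.gen x⟩

theorem Crv.add (h : Crv P a c) (h' : Crv P a' c') : Crv P (a + a') (c + c') :=
  ⟨_, _, h.choose_spec.choose_spec.add h'.choose_spec.choose_spec⟩

theorem Crv.neg (h : Crv P a c) : Crv P (-a) (-c) := ⟨_, _, h.choose_spec.choose_spec.neg⟩

theorem Crv.pull (h : Crv P a c) (μ : Mor P' P) {b : BD ℂ K} {u : F}
    (hb : ∀ (y : Pts P') (f : F), At a (μ.map y) f → At b y (μ.p.π (f / u))) :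
    Crv P' b (pull (ambM μ) c) := ⟨_, _, h.choose_spec.choose_spec.pull μ hb⟩

theorem crv_pr (f : F) : Crv P (pr ℂ f) 0 := by
  by_cases hf : f = 0
  · rw [hf, pr_zero, ← pr_one]
    exact ⟨_, _, cn_pr one_ne_zero⟩
  · exact ⟨_, _, cn_pr hf⟩

/-! ### free divisors -/

variable {r : ℕ} {s : Fin (r + 1) → F}

/-- the ambient functions of the family `s / u` -/
def fv (P : PModel ℂ F) (s : Fin (r + 1) → F) (u : F) (q : Hm P.N) : HC r :=
  fun k => fa P (s k / u) q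

theorem fv_sm {u : F} (hu : At (mxf ℂ s) x u) : ContDiffAt ℝ ∞ (fv P s u) (jP P x) :=
  contDiffAt_pi.2 fun k => fa_sm (hu.div_mem (mem_Sec_mxf s k))

theorem fv_j {u : F} (hu : At (mxf ℂ s) x u) : fv P s u (jP P x) = fun k => ev (s k / u) x :=
  funext fun k => fa_j (hu.div_mem (mem_Sec_mxf s k))

theorem fv_ne (hs : Cns.Gn P s) {u : F} (hu : At (mxf ℂ s) x u) : fv P s u (jP P x) ≠ 0 := by
  obtain ⟨j, h1, h2⟩ := hs x
  rw [fv_j hu]
  exact Function.ne_iff.2 ⟨j, (at_mxf h1 h2).ev_div_ne hu⟩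

theorem fv_chg {u u' : F} (hu : At (mxf ℂ s) x u) (hu' : At (mxf ℂ s) x u') :
    fv P s u (jP P x) = fa P (u' / u) (jP P x) • fv P s u' (jP P x) := by
  have h1 := LP.mem_of_ne (hu'.ev_div_ne hu)
  rw [fv_j hu, fv_j hu', fa_j h1]
  funext k
  rw [Pi.smul_apply, smul_eq_mul, ev, ev, ev, ← LP.v_mul _ h1 (hu'.div_mem (mem_Sec_mxf s k)),
    mul_comm, div_mul_div_cancel₀ hu'.ne]

/-- `Φ` induces the map to projective space given by `s` -/
def IsPhi (P : PModel ℂ F) (s : Fin (r + 1) → F) (Φ : Hm P.N → Hm r) : Prop :=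
  ∀ x, ContDiffAt ℝ ∞ Φ (jP P x) ∧
    ∀ u, At (mxf ℂ s) x u → Φ (jP P x) = ofM (pm fun k => ev (s k / u) x)

theorem exists_phi (hs : Cns.Gn P s) : ∃ Φ, IsPhi P s Φ := by
  obtain ⟨Φ, h⟩ := glue (em P) isOpen_univ
    (t := fun x => {b | ∀ u, At (mxf ℂ s) x u → b = ofM (pm fun k => ev (s k / u) x)})
    (fun x _ => Set.Subsingleton.convex fun b hb b' hb' => by
      obtain ⟨u, hu⟩ := mxf_mem hs x
      rw [hb u hu, hb' u hu])
    fun x _ => by
      obtain ⟨u, hu⟩ := mxf_mem hs x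
      refine ⟨fun q => ofM (pm (fv P s u q)), hu.eventually.mono fun y hy =>
        ⟨contDiffAt_ofM (fv_sm hy) (fv_ne hs hy), fun u' hu' => ?_⟩⟩
      have h1 := hu'.ev_div_ne hy
      change ofM (pm (fv P s u (jP P y))) = _
      rw [← fv_j hu', fv_chg hy hu', pm_smul (by rwa [fa_j (LP.mem_of_ne h1)])]
  exact ⟨Φ, fun x => h x trivial⟩

theorem isPhi_y : IsPhi P P.y fun q => q := fun x => ⟨contDiffAt_id, fun u hu => by
  obtain ⟨i, hi⟩ := exists_pat x
  have h1 := (at_y hi).ev_div_ne hu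
  rw [jP_eq hi, ← fv_j hu, ← fv_j (at_y hi), fv_chg hu (at_y hi),
    pm_smul (by rwa [fa_j (LP.mem_of_ne h1)])]⟩

theorem IsPhi.res_fs (hs : Cns.Gn P s) {Φ : Hm P.N → Hm r} (hΦ : IsPhi P s Φ) {u : F}
    (hu : At (mxf ℂ s) x u) :
    rP x (pull Φ (fs r) (jP P x)) = rP x (d (cn (fv P s u)) (jP P x)) := by
  rw [← pull_fs (fv_sm hu) (fv_ne hs hu)]
  refine res_pull_congr _ (jP_mem x) ((hΦ x).1.differentiableAt (by simp))
    ((contDiffAt_ofM (fv_sm hu) (fv_ne hs hu)).differentiableAt (by simp)) (ev_XP.2 ?_)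
  filter_upwards [hu.eventually] with y hy
  rw [(hΦ y).2 u hy, fv_j hy]

/-- the curvature of a free divisor is the pull-back of the Fubini-Study form -/
theorem crv_mxf (hs : Cns.Gn P s) {Φ : Hm P.N → Hm r} (hΦ : IsPhi P s Φ) :
    Crv P (mxf ℂ s) (pull Φ (fs r)) := by
  choose g hg using mxf_mem hs
  refine ⟨g, fun x q => - cn (fv P s (g x)) q, (em P).forall_X.2 fun x =>
    contDiffAt_pull (hΦ x).1 (le_refl _) contDiff_fs.contDiffAt, hom_fs.pull, hg,
    fun x => (hom_cn _).neg, fun x => (hg x).eventually.mono fun y hy =>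
      ⟨(contDiffAt_cn (fv_sm hy) (fv_ne hs hy)).neg, ?_, ?_⟩⟩
  · rw [d_neg, map_add, hΦ.res_fs hs hy, map_neg, neg_add_cancel]
  · have h1 := hy.ev_div_ne (hg y)
    have h2 := LP.mem_of_ne h1
    have h3 := (fv_sm hy).differentiableAt (by simp)
    rw [map_neg, map_neg, ag, eq_neg_add_iff_add_eq, add_neg_eq_iff_eq_add, ← map_add,
      ← cn_smul (fa_diff h2) h3 (by rwa [fa_j h2]) (fv_ne hs hy)]
    refine res_pull_congr _ (jP_mem y) ((fv_sm (hg y)).differentiableAt (by simp))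
      ((fa_diff h2).fun_smul h3) (ev_XP.2 ?_)
    filter_upwards [hy.eventually, (hg y).eventually] with z k1 k2
    exact fv_chg k2 k1

theorem crv_oP : Crv P (oP P) (fs P.N) := by
  have h := crv_mxf Cns.gn_y (isPhi_y (P := P))
  rwa [show pull (fun q => q) (fs P.N) = fs P.N from funext (pull_id _)] at h

theorem ec_fs : EC (XP P) (fs P.N) := crv_oP.ec

theorem exists_crv (ha : a ∈ On P) : ∃ c, Crv P a c := by
  obtain ⟨b, hb, N, hf, rfl⟩ := exists_sub_On ha
  obtain ⟨r, s, -, hs, rfl⟩ := exists_gn hb hf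
  obtain ⟨Φ, hΦ⟩ := exists_phi hs
  have h : ∀ N : ℕ, ∃ c, Crv P (N • oP P) c := fun N => by
    induction N with
    | zero => exact ⟨_, by rw [zero_smul, ← pr_zero]; exact crv_pr 0⟩
    | succ N ih => exact ih.elim fun c hc => ⟨_, by rw [succ_nsmul]; exact hc.add crv_oP⟩
  obtain ⟨c, hc⟩ := h N
  exact ⟨_, by rw [sub_eq_add_neg]; exact (crv_mxf hs hΦ).add hc.neg⟩

/-! ### the class -/

open Classical in
/-- **the first Chern class** of `O(a)` -/
def c1P (P : PModel ℂ F) (a : BD ℂ F) : HP P :=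
  if h : ∃ c, Crv P a c then rcl h.choose_spec.ec else 0

theorem Crv.c1_eq (h : Crv P a c) : c1P P a = rcl h.ec := by
  have h1 : ∃ c, Crv P a c := ⟨c, h⟩
  rw [c1P, dif_pos h1]
  exact rcl_congr _ _ (h1.choose_spec.choose_spec.choose_spec.coh h.choose_spec.choose_spec)

theorem c1P_oP : c1P P (oP P) = rcl ec_fs := crv_oP.c1_eq

theorem c1P_dg (ha : a ∈ On P) : c1P P a ∈ dgP P 1 := by
  obtain ⟨c, h⟩ := exists_crv ha
  rw [h.c1_eq]
  exact rcl_mem_HD _ h.deg

theorem c1P_add (ha : a ∈ On P) (ha' : a' ∈ On P) : c1P P (a + a') = c1P P a + c1P P a' := by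
  obtain ⟨c, h⟩ := exists_crv ha
  obtain ⟨c', h'⟩ := exists_crv ha'
  rw [(h.add h').c1_eq, h.c1_eq, h'.c1_eq, ← rcl_add]

theorem c1P_pr (f : F) : c1P P (pr ℂ f) = 0 := (crv_pr f).c1_eq.trans rcl_zero

theorem c1P_pb (μ : Mor P' P) (ha : a ∈ On P) {b : BD ℂ K} {u : F}
    (hb : ∀ (y : Pts P') (f : F), At a (μ.map y) f → At b y (μ.p.π (f / u))) :
    pullH μ (c1P P a) = c1P P' b := by
  obtain ⟨c, h⟩ := exists_crv ha
  rw [h.c1_eq, (h.pull μ hb).c1_eq, pullH_rcl]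

theorem c1P_conj (ha : a ∈ On P) : H.conj (XP P) (c1P P a) = c1P P a := by
  obtain ⟨c, h⟩ := exists_crv ha
  rw [h.c1_eq, conj_rcl]

theorem c1P_zero : c1P P 0 = 0 := by rw [← pr_zero, c1P_pr]

theorem c1P_sub (ha : a ∈ On P) (ha' : a' ∈ On P) : c1P P (a - a') = c1P P a - c1P P a' := by
  rw [eq_sub_iff_add_eq, ← c1P_add (sub_mem ha ha') ha', sub_add_cancel]

theorem c1P_nsmul (ha : a ∈ On P) (m : ℕ) : c1P P (m • a) = m • c1P P a := by
  induction m with
  | zero => rw [zero_smul, zero_smul, c1P_zero]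
  | succ m ih => rw [succ_nsmul, succ_nsmul, c1P_add (nsmul_mem ha m) ha, ih]

/-- induction: a property of `c1` is checked on free divisors -/
theorem c1P_mem {S : AddSubgroup (HP P)}
    (h : ∀ (r : ℕ) (s : Fin (r + 1) → F), Cns.Gn P s → c1P P (mxf ℂ s) ∈ S) (ha : a ∈ On P) :
    c1P P a ∈ S := by
  obtain ⟨b, hb, N, hf, rfl⟩ := exists_sub_On ha
  obtain ⟨r, s, -, hs, rfl⟩ := exists_gn hb hf
  rw [c1P_sub hb (nsmul_mem oP_mem N), c1P_nsmul oP_mem]
  exact sub_mem (h r s hs) (nsmul_mem (h _ _ Cns.gn_y) N)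

/-- the first Chern class as a field of `Coh.Th` -/
def c1 (X : Coh.SV) (a : BD ℂ X.F) : HP X.P := c1P X.P a

theorem c1Ax : C1Ax c1 where
  dg _ _ ha := c1P_dg ha
  add _ _ ha _ hb := c1P_add ha hb
  pr _ f := c1P_pr f
  pb μ _ ha _ h := h.elim fun _ hu => c1P_pb μ ha hu
  cj _ _ ha := c1P_conj ha

end Crest.Agent.X262.PL
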