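import Crest.Agent.X262.PL.C1

/-!
# Row 262, PL (helper92), part C1S: the singular connection form of an effective divisor

* `Crv.exists_sg`, `sg_c1` : a form `θ`, smooth off the support, with `θ = ang t + smooth` near
  every point, `t` a local equation.
-/

set_option autoImplicit false
set_option linter.unusedSectionVars false

open Set Filter Topology Module
open scoped ContDiff
open Crest.Agent.R208.F Crest.Agent.R208.FI Crest.Agent.R208.CW Crest.Agent.R208.T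
open Crest.Agent.X277 Crest.Agent.X277.Lef Crest.Agent.X277.AN.G1 Crest.Agent.X277.BD
  Crest.Agent.X277.BD.Br
open Crest.Agent.X262.Man

noncomputable section

namespace Crest.Agent.X262.PL

variable {F : Type} [Field F] [Algebra ℂ F] {P : PModel ℂ F} {a : BD ℂ F}
  {c : Hm P.N → Ext (Hm P.N)}

theorem mem_of_at (h0 : 0 ≤ a) {x : Pts P} {t : F} (ht : At a x t⁻¹) : t ∈ (lp x).O := by
  simpa using (at_zero x).div_mem_of_le ht h0

theorem Crv.exists_sg (h : Crv P a c) (h0 : 0 ≤ a) : ∃ θ : Hm P.N → Ext (Hm P.N), Hom 1 θ ∧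
    (∀ x : Pts P, At a x 1 → ContDiffAt ℝ ∞ θ (jP P x)) ∧
    ∀ (x : Pts P) (t : F), At a x t⁻¹ → Sg (XP P) θ c (fa P t) (jP P x) := by
  obtain ⟨g, α, h⟩ := h
  obtain ⟨θ, hθ⟩ := glue (em P) (isOpen_at a 1)
    (t := fun y => {b | IsDeg 1 b} ∩ (rP y).toLinearMap ⁻¹' {om g α y 1})
    (fun y _ => Convex.inter (fun _ hb _ hb' r s _ _ _ => (IsDeg.smul hb r).add (IsDeg.smul hb' s))
      ((convex_singleton _).linear_preimage _)) fun x hx => by
      obtain ⟨β, h1, h2⟩ := h.loc' hx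
      exact ⟨β, h2.mono fun y hy => ⟨hy.2.1, h1 _, hy.2.2.2⟩⟩
  refine ⟨dp 1 θ, hom_dp 1 θ, fun x hx =>
    (dplL (E := Hm P.N) 1).contDiff.contDiffAt.comp _ (hθ x hx).1, fun x t ht => ?_⟩
  obtain ⟨β, h1, h2⟩ := h.loc' ht
  refine ⟨β, ev_XP.2 (h2.mono fun y hy => ?_)⟩
  have h3 := mem_of_at h0 hy.1
  refine ⟨fa_sm h3, hy.2.1, inv_of_one (h1 _), hy.2.2.1, fun h4 => ?_⟩
  have h5 : At a y 1 := hy.1.of_ev' (by rwa [one_div, _root_.inv_inv, ← fa_j h3])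
  have h6 : dp 1 θ (jP P y) = θ (jP P y) := dpl_of_isDeg (hθ y h5).2.1
  have h7 : rP y (θ (jP P y)) = om g α y 1 := (hθ y h5).2.2
  have h8 := h.om_chg hy.1 h5
  rw [one_div, _root_.inv_inv, ← hy.2.2.2, add_comm (rP y _)] at h8
  rw [h6]
  exact (h7.trans h8).trans (map_add _ _ _).symm

/-- the form asked by `Coh.SgStmt` -/
theorem sg_c1 (X : Coh.SV) (a : BD ℂ X.F) (ha : a ∈ X.On) (h0 : 0 ≤ a) :
    ∃ (θ c : Hm X.P.N → Ext (Hm X.P.N)) (hc : EC (XP X.P) c), c1 X a = rcl hc ∧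
      (∀ q, inv (θ q) = -θ q) ∧ (∀ x : X.Pt, At a x 1 → ContDiffAt ℝ ∞ θ (jP X.P x)) ∧
      ∀ x : X.Pt, ∃ t : X.F, At a x t⁻¹ ∧ ∃ s, (∀ᶠ y in 𝓝 x, s (jP X.P y) = ev t y) ∧
        Sg (XP X.P) θ c s (jP X.P x) := by
  obtain ⟨c, h⟩ := exists_crv ha
  obtain ⟨θ, h1, h2, h3⟩ := h.exists_sg h0
  refine ⟨θ, c, h.ec, h.c1_eq, fun q => inv_of_one (h1 q), h2, fun x => ?_⟩
  obtain ⟨g, hg⟩ := ha x
  rw [← _root_.inv_inv g] at hg
  exact ⟨g⁻¹, hg, _, hg.eventually.mono fun y hy => fa_j (mem_of_at h0 hy), h3 x _ hg⟩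

end Crest.Agent.X262.PL
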