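import Crest.Agent.R208.T0b

/-!
# Row 262, PL (helper92), part Int: integrable (singular) forms, localisation

* `res X x`  : restriction of real forms to the tangent space;
* `Int d X o om` : the density of `om` is integrable; `J_add'`, `J_sum'`, `Int.congr`, `J_congr_ae`;
* `Clo.null` : a closed submanifold of smaller dimension is a null set;
* `localise` : additive properties of functions/forms which hold for small supports hold always;
* `J_mul_d`  : `∫ a ∧ dψ = ∫ da ∧ ψ` for odd `a` which is `C¹` near the support of `ψ`;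
* `Loc.reparam` : change of the local coordinate by a local diffeomorphism.
-/

set_option autoImplicit false
set_option linter.unusedSectionVars false

open Set Filter Topology Module MeasureTheory MeasureTheory.Measure
open scoped ContDiff
open Crest.Agent.R208.F Crest.Agent.R208.FI

noncomputable section

namespace Crest.Agent.X262.PL

variable {E : Type*} [NormedAddCommGroup E] [NormedSpace ℝ E] [FiniteDimensional ℝ E]
  {n : ℕ} {X Z : Set E} {o a b ψ : E → Ext E} {x : E}

/-- restriction to the tangent space -/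
abbrev res (X : Set E) (x : E) : Ext E →ₐ[ℝ] Ext (Tan X x) := pb (Tan X x).subtype

theorem evA_res {c c' : Ext E} (h : res X x c = res X x c') {q : ℕ} {w : Fin q → E}
    (hw : ∀ i, w i ∈ Tan X x) : evA E q c w = evA E q c' w := by
  have key : ∀ e : Ext E, evA E q e w = evA (Tan X x) q (res X x e) fun i => ⟨w i, hw i⟩ :=
    fun e => by rw [evA_pb]; rfl
  rw [key, key c', h]

theorem dens_res (hX : Clo n X) (hx : x ∈ X) (h : res X x (a x) = res X x (b x)) :
    dens n X o a x = dens n X o b x := by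
  rw [dens, dens, evA_res h (frame_isFrame (hX.finrank_Tan hx)).2]

/-- the density of the form `a` is integrable -/
def Int (n : ℕ) (X : Set E) (o a : E → Ext E) : Prop :=
  IntegrableOn (fun y => dens n X o a (toEuclidean.symm y)) ((toEuclidean : E ≃L[ℝ] _) '' X) μHE[n]

theorem Int.of_cont (hX : Clo n X) (ho : Ori n X o) (h : ContinuousOn a X) : Int n X o a :=
  integrableOn_dens hX ho h

theorem Int.add (h : Int n X o a) (h' : Int n X o b) : Int n X o fun x => a x + b x := by
  simp only [Int, dens_add]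
  exact Integrable.add h h'

theorem Int.smul (r : ℝ) (h : Int n X o a) : Int n X o fun x => r • a x := by
  simp only [Int, dens_smul]
  exact Integrable.const_mul h r

theorem Int.zero : Int n X o fun _ => 0 := by
  have : (fun y : EuclideanSpace ℝ (Fin (finrank ℝ E)) =>
      dens n X o (fun _ => 0) (toEuclidean.symm y)) = fun _ => 0 := by
    funext y; simp [dens]
  rw [Int, this]
  exact integrableOn_zero

theorem Int.sum {ι : Type*} (s : Finset ι) {a : ι → E → Ext E} (h : ∀ i ∈ s, Int n X o (a i)) :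
    Int n X o fun x => ∑ i ∈ s, a i x := by
  classical
  induction s using Finset.induction_on with
  | empty => simpa using Int.zero
  | insert i s hi ih =>
    simp only [Finset.sum_insert hi]
    exact (h i (Finset.mem_insert_self _ _)).add (ih fun j hj => h j (Finset.mem_insert_of_mem hj))

theorem J_add' (h : Int n X o a) (h' : Int n X o b) :
    J n X o (fun x => a x + b x) = J n X o a + J n X o b := by
  rw [J, J, J, ← integral_add h h']
  simp only [dens_add]

theorem J_sum' {ι : Type*} (s : Finset ι) {a : ι → E → Ext E} (h : ∀ i ∈ s, Int n X o (a i)) :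
    J n X o (fun x => ∑ i ∈ s, a i x) = ∑ i ∈ s, J n X o (a i) := by
  classical
  induction s using Finset.induction_on with
  | empty => simpa using J_zero
  | insert i s hi ih =>
    simp only [Finset.sum_insert hi]
    rw [J_add' (h i (Finset.mem_insert_self _ _))
      (Int.sum s fun j hj => h j (Finset.mem_insert_of_mem hj)),
      ih fun j hj => h j (Finset.mem_insert_of_mem hj)]

/-- `Z` is negligible for `n`-dimensional integrals -/
def Null (n : ℕ) (Z : Set E) : Prop := μHE[n] ((toEuclidean : E ≃L[ℝ] _) '' Z) = 0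

theorem Null.of_clo {m : ℕ} (hZ : Clo m Z) (h : m < n) : Null n Z :=
  (euclideanHausdorffMeasure_zero_or_top h _).resolve_right hZ.measure_lt_top.ne

theorem Null.iUnion {ι : Type*} [Countable ι] {Z : ι → Set E} (h : ∀ i, Null n (Z i)) :
    Null n (⋃ i, Z i) := by
  rw [Null, image_iUnion]
  exact measure_iUnion_null h

theorem dens_ae (hX : Clo n X) (hZ : Null n Z)
    (h : ∀ x ∈ X, x ∉ Z → res X x (a x) = res X x (b x)) :
    (fun y => dens n X o a (toEuclidean.symm y))
      =ᵐ[μHE[n].restrict ((toEuclidean : E ≃L[ℝ] _) '' X)]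
      fun y => dens n X o b (toEuclidean.symm y) := by
  have h1 : ∀ᵐ y ∂μHE[n], y ∉ (toEuclidean : E ≃L[ℝ] _) '' Z := measure_eq_zero_iff_ae_notMem.1 hZ
  filter_upwards [ae_restrict_mem hX.measurableSet, ae_restrict_of_ae h1] with y hy hyZ
  obtain ⟨x, hx, rfl⟩ := hy
  rw [ContinuousLinearEquiv.symm_apply_apply]
  exact dens_res hX hx (h x hx fun hz => hyZ ⟨x, hz, rfl⟩)

theorem Int.congr (hX : Clo n X) (hZ : Null n Z)
    (h : ∀ x ∈ X, x ∉ Z → res X x (a x) = res X x (b x)) (hb : Int n X o b) : Int n X o a :=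
  Integrable.congr hb (dens_ae hX hZ h).symm

theorem J_congr_ae (hX : Clo n X) (hZ : Null n Z)
    (h : ∀ x ∈ X, x ∉ Z → res X x (a x) = res X x (b x)) : J n X o a = J n X o b :=
  integral_congr_ae (dens_ae hX hZ h)

theorem null_empty : Null n (∅ : Set E) := by simp [Null]

theorem J_congr_res (hX : Clo n X) (h : ∀ x ∈ X, res X x (a x) = res X x (b x)) :
    J n X o a = J n X o b := J_congr_ae hX null_empty fun x hx _ => h x hx

theorem Int.congr' (hX : Clo n X) (h : ∀ x ∈ X, res X x (a x) = res X x (b x))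
    (hb : Int n X o b) : Int n X o a := Int.congr hX null_empty (fun x hx _ => h x hx) hb

/-- integrability of a form vanishing outside a chart -/
theorem Int.of_chart (hX : Clo n X) {f : Eu n → E} {V : Set (Eu n)} (hf : Chart n X f V)
    (h0 : ∀ x ∈ X, x ∉ f '' V → a x = 0)
    (h : IntegrableOn (fun u => top n (pull f a u) * Real.sign (top n (pull f o u))) V) :
    Int n X o a := by
  rw [← integrableOn_chart hf hf.isOpen.measurableSet le_rfl] at h
  refine h.of_forall_sdiff_eq_zero hX.measurableSet ?_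
  rintro _ ⟨⟨x, hx, rfl⟩, hx2⟩
  have hx3 : x ∉ f '' V := fun h => hx2 ⟨x, h, rfl⟩
  simp [dens, h0 x hx hx3]

/-! ### localisation -/

/-- **localisation principle** -/
theorem localise {G : Type*} [NormedAddCommGroup G] [NormedSpace ℝ G] (hX : IsCompact X)
    {k : ℕ∞} {P : (E → G) → Prop} (h0 : P fun _ => 0)
    (hadd : ∀ a b : E → G, (∀ x ∈ X, ContDiffAt ℝ k a x) → (∀ x ∈ X, ContDiffAt ℝ k b x) →
      P a → P b → P fun x => a x + b x)
    (hcongr : ∀ a b : E → G, (∀ x ∈ X, a =ᶠ[𝓝 x] b) → P a → P b)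
    (hloc : ∀ x ∈ X, ∃ U ∈ 𝓝 x, ∀ a : E → G, (∀ x ∈ X, ContDiffAt ℝ k a x) → tsupport a ⊆ U → P a)
    {φ : E → G} (hφ : ∀ x ∈ X, ContDiffAt ℝ k φ x) : P φ := by
  classical
  have key : ∀ x : E, x ∈ X → ∃ χ : E → ℝ, ContDiff ℝ k χ ∧ (∀ y, 0 ≤ χ y) ∧ 0 < χ x ∧
      ∀ a : E → G, (∀ x ∈ X, ContDiffAt ℝ k a x) → P fun y => χ y • a y := by
    intro x hx
    obtain ⟨U, hU, hP⟩ := hloc x hx
    obtain ⟨χ, h1, -, h3, h4, h5⟩ := exists_contDiff_tsupport_subset (n := k) hU
    refine ⟨χ, h3, fun y => (h4 ⟨y, rfl⟩).1, by rw [h5]; norm_num, fun a ha => hP _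
      (fun y hy => h3.contDiffAt.smul (ha y hy)) ((tsupport_smul_subset_left _ _).trans h1)⟩
  choose! χ hχ hχ0 hχp hχP using key
  obtain ⟨t, htX, ht⟩ := hX.elim_nhds_subcover (fun x => {y | 0 < χ x y}) (fun x hx =>
    (isOpen_lt continuous_const (hχ x hx).continuous).mem_nhds (hχp x hx))
  set Φ : E → ℝ := fun y => ∑ x ∈ t, χ x y with hΦ
  have hΦC : ContDiff ℝ k Φ := ContDiff.sum fun x hx => hχ x (htX x hx)
  have hΦp : ∀ y ∈ X, 0 < Φ y := by
    intro y hy
    obtain ⟨x, hx, hxy⟩ := mem_iUnion₂.1 (ht hy)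
    exact Finset.sum_pos' (fun z hz => hχ0 z (htX z hz) y) ⟨x, hx, hxy⟩
  set β : E → G := fun y => (Φ y)⁻¹ • φ y with hβ
  have hβC : ∀ x ∈ X, ContDiffAt ℝ k β x := fun x hx =>
    (hΦC.contDiffAt.inv (hΦp x hx).ne').smul (hφ x hx)
  have hs : ∀ s ⊆ t, P fun y => ∑ i ∈ s, χ i y • β y := by
    intro s hs
    induction s using Finset.induction_on with
    | empty => simpa using h0
    | insert i s hi ih =>
      simp only [Finset.sum_insert hi]
      have hi' : i ∈ X := htX i (hs (Finset.mem_insert_self _ _))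
      have hs' : s ⊆ t := fun j hj => hs (Finset.mem_insert_of_mem hj)
      exact hadd _ _ (fun x hx => (hχ i hi').contDiffAt.smul (hβC x hx))
        (fun x hx => ContDiffAt.sum fun j hj =>
          (hχ j (htX j (hs' hj))).contDiffAt.smul (hβC x hx)) (hχP i hi' β hβC) (ih hs')
  refine hcongr _ _ (fun x hx => ?_) (hs t le_rfl)
  filter_upwards [hΦC.continuous.continuousAt.eventually (lt_mem_nhds (hΦp x hx))] with y hy
  rw [← Finset.sum_smul, hβ, smul_smul]
  change (Φ y * (Φ y)⁻¹) • φ y = φ y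
  rw [mul_inv_cancel₀ hy.ne', one_smul]

theorem d_of_notMem (h : x ∉ tsupport ψ) : d ψ x = 0 := by
  rw [d_congr (notMem_tsupport_iff_eventuallyEq.1 h)]
  exact d_const 0 x

/-- integration by parts against an odd form which is `C¹` along the support of `ψ` -/
theorem J_mul_d (hX : Clo n X) (ho : Ori n X o) (hψ : ∀ x ∈ X, ContDiffAt ℝ 1 ψ x)
    (ha : ∀ x ∈ X, x ∈ tsupport ψ → ContDiffAt ℝ 1 a x ∧ inv (a x) = - a x) :
    Int n X o (fun x => a x * d ψ x) ∧ Int n X o (fun x => d a x * ψ x) ∧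
      J n X o (fun x => a x * d ψ x) = J n X o (fun x => d a x * ψ x) := by
  have hz : ∀ x, x ∉ tsupport ψ → ∀ᶠ y in 𝓝 x, y ∉ tsupport ψ := fun x hx =>
    (isClosed_tsupport ψ).isOpen_compl.mem_nhds hx
  have h1 : ContinuousOn (fun x => a x * d ψ x) X := by
    intro x hx
    by_cases h : x ∈ tsupport ψ
    · exact (contDiffAt_mul (n := 0) ((ha x hx h).1.of_le (by norm_num))
        (contDiffAt_d (hψ x hx) (by norm_num))).continuousAt.continuousWithinAt
    · refine (continuousAt_const (y := (0 : Ext E))).congr ?_ |>.continuousWithinAt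
      filter_upwards [hz x h] with y hy
      rw [d_of_notMem hy, mul_zero]
  have h2 : ContinuousOn (fun x => d a x * ψ x) X := by
    intro x hx
    by_cases h : x ∈ tsupport ψ
    · exact (contDiffAt_mul (n := 0) (contDiffAt_d (ha x hx h).1 (by norm_num))
        ((hψ x hx).of_le (by norm_num))).continuousAt.continuousWithinAt
    · refine (continuousAt_const (y := (0 : Ext E))).congr ?_ |>.continuousWithinAt
      filter_upwards [hz x h] with y hy
      rw [image_eq_zero_of_notMem_tsupport hy, mul_zero]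
  have h3 : ∀ x, x ∉ tsupport ψ → (fun x => a x * ψ x) =ᶠ[𝓝 x] fun _ => 0 := fun x h => by
    filter_upwards [hz x h] with y hy
    rw [image_eq_zero_of_notMem_tsupport hy, mul_zero]
  have h4 : ∀ x ∈ X, ContDiffAt ℝ 1 (fun x => a x * ψ x) x := by
    intro x hx
    by_cases h : x ∈ tsupport ψ
    · exact contDiffAt_mul (ha x hx h).1 (hψ x hx)
    · exact contDiffAt_const.congr_of_eventuallyEq (h3 x h)
  refine ⟨Int.of_cont hX ho h1, Int.of_cont hX ho h2, ?_⟩
  have h5 := J_d hX ho h4
  rw [J_congr' (om' := fun x => d a x * ψ x - a x * d ψ x) hX, J_sub hX ho h2 h1] at h5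
  · exact (sub_eq_zero.1 h5).symm
  · intro x hx
    by_cases h : x ∈ tsupport ψ
    · rw [d_mul ((ha x hx h).1.differentiableAt (by simp)) ((hψ x hx).differentiableAt (by simp)),
        (ha x hx h).2, neg_mul, sub_eq_add_neg]
    · rw [d_congr (h3 x h), d_const, d_of_notMem h, image_eq_zero_of_notMem_tsupport h, mul_zero,
        mul_zero, sub_zero]

/-! ### change of the local coordinate -/

theorem Loc.reparam {P Q : Type*} [NormedAddCommGroup P] [NormedSpace ℝ P] [FiniteDimensional ℝ P]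
    [NormedAddCommGroup Q] [NormedSpace ℝ Q] [FiniteDimensional ℝ Q] {f : P → E} {W : Set P}
    {O : Set E} {ℓ : E → P} (h : Loc X f W O ℓ) {T : P → Q} (hT : ∀ u ∈ W, ContDiffAt ℝ ∞ T u)
    {u₀ : P} (hu₀ : u₀ ∈ W) (hs : Function.Surjective (fderiv ℝ T u₀))
    (hdim : finrank ℝ P = finrank ℝ Q) :
    ∃ (τ : Q → P) (W₁ : Set Q) (O₁ : Set E), Loc X (fun p => f (τ p)) W₁ O₁ (fun q => T (ℓ q)) ∧
      T u₀ ∈ W₁ ∧ τ (T u₀) = u₀ ∧ ∀ p ∈ W₁, τ p ∈ W ∧ T (τ p) = p := by
  have : CompleteSpace P := FiniteDimensional.complete ℝ P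
  have hTd : ∀ w ∈ W, HasFDerivAt T (fderiv ℝ T w) w := fun w hw =>
    ((hT w hw).differentiableAt (by simp)).hasFDerivAt
  set A : P ≃L[ℝ] Q := (LinearEquiv.ofBijective (fderiv ℝ T u₀ : P →ₗ[ℝ] Q)
    ⟨(LinearMap.injective_iff_surjective_of_finrank_eq_finrank hdim).2 hs, hs⟩
    ).toContinuousLinearEquiv with hA
  have hA' : (A : P →L[ℝ] Q) = fderiv ℝ T u₀ := by ext1 v; rfl
  have hT0 : HasFDerivAt T (A : P →L[ℝ] Q) u₀ := by rw [hA']; exact hTd u₀ hu₀
  set e := (hT u₀ hu₀).toOpenPartialHomeomorph T hT0 (by simp) with he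
  have hcont : ContinuousOn (fun w => fderiv ℝ T w) W := by
    have h1 : ContDiffOn ℝ ∞ T W := fun w hw => (hT w hw).contDiffWithinAt
    exact h1.continuousOn_fderiv_of_isOpen h.oW (by simp)
  set W' : Set P := W ∩ (fun w => fderiv ℝ T w) ⁻¹'
    (range ((↑) : (P ≃L[ℝ] Q) → (P →L[ℝ] Q))) with hW'
  have hW'o : IsOpen W' := hcont.isOpen_inter_preimage h.oW ContinuousLinearEquiv.isOpen
  set e' := e.restrOpen W' hW'o with he'
  have hsrc : e'.source = e.source ∩ W' := rfl
  have hw₀s : u₀ ∈ e'.source :=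
    ⟨(hT u₀ hu₀).mem_toOpenPartialHomeomorph_source hT0 (by simp), hu₀, A, hA'⟩
  have hsm : ∀ p ∈ e'.target, ContDiffAt ℝ ∞ e'.symm p := by
    intro p hp
    have hps : e'.symm p ∈ e'.source := e'.map_target hp
    obtain ⟨B, hB⟩ := hps.2.2
    have hB' : (B : P →L[ℝ] Q) = fderiv ℝ T (e'.symm p) := hB
    refine e'.contDiffAt_symm (f₀' := B) hp ?_ (hT _ hps.2.1)
    rw [hB']; exact hTd _ hps.2.1
  have hW : ∀ p ∈ e'.target, e'.symm p ∈ W := fun p hp => (e'.map_target hp).2.1
  have h1 := h.restrict (W' := e'.source) (fun u hu => hu.2.1) e'.open_source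
  refine ⟨e'.symm, e'.target, O ∩ ℓ ⁻¹' e'.source, ⟨e'.open_target, h1.oO, fun p hp => ?_,
    fun q hq => ?_, ?_, fun p hp => ?_, fun q hq => e'.map_source hq.2⟩, e'.map_source hw₀s,
    e'.left_inv hw₀s, fun p hp => ⟨hW p hp, e'.right_inv hp⟩⟩
  · exact ((h.fC' (hW p hp)).comp p (hsm p hp)).contDiffWithinAt
  · exact ((hT _ (h.maps q hq.1)).comp q (h.lC' hq.1)).contDiffWithinAt
  · have h2 : e'.symm '' e'.target = e'.source := e'.symm.image_source_eq_target
    rw [← h1.img, ← h2, image_image]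
  · rw [h.inv _ (hW p hp)]
    exact e'.right_inv hp

end Crest.Agent.X262.PL
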