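import Crest.Agent.X262.PL.Flat
import Crest.Agent.X262.PL.Int
import Crest.Agent.R208.CM3

/-!
# Row 262, PL (helper92), part Chart: local equations of cooriented submanifolds of codimension 2

* `Dv n X Y oY g` : `g : Y → X` is an embedding of the closed oriented `n`-manifold `Y`;
* `LEq n X o Y oY g z x` : `z : E → ℂ` is a positive local equation of `g (Y)` in `X` at `x`;
* `LEq.adapt` : adapted charts; `LEq.sing` : the local Poincaré–Lelong formula.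
-/

set_option autoImplicit false
set_option linter.unusedSectionVars false

open Set Filter Topology Module MeasureTheory
open scoped ContDiff
open Crest.Agent.R208.F Crest.Agent.R208.FI
open Crest.Agent.R208.CW (SMap two_le)

noncomputable section

namespace Crest.Agent.X262.PL

/-! ### linear algebra -/

/-- the coefficient of the top form on `ℂ × ℝ^n` -/
def Tp (n : ℕ) : Ext (ℂ × Eu n) →ₗ[ℝ] ℝ := top (n + 2) ∘ₗ
  (pb ((eP n : Eu (n + 2) →L[ℝ] ℂ × Eu n) : Eu (n + 2) →ₗ[ℝ] ℂ × Eu n)).toLinearMap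

theorem Tp_apply (n : ℕ) (c : Ext (ℂ × Eu n)) : Tp n c = top (n + 2)
    (pb ((eP n : Eu (n + 2) →L[ℝ] ℂ × Eu n) : Eu (n + 2) →ₗ[ℝ] ℂ × Eu n) c) := rfl

theorem Tp_eq (n : ℕ) (c : Ext (ℂ × Eu n)) : Tp n c = evA _ (n + 2) c (bP n) := by
  rw [Tp_apply, top_pb]
  exact congrArg _ (funext (eP_sb n))

theorem evA_fxfy {Q : Type*} [NormedAddCommGroup Q] [NormedSpace ℝ Q] [FiniteDimensional ℝ Q]
    {n : ℕ} (c : Ext (ℂ × Q)) (a b : Q) (u : Fin n → Q) :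
    evA _ (n + 2) (fx * fy * c)
      (Matrix.vecCons (1, a) (Matrix.vecCons (Complex.I, b) fun j => (0, u j)))
      = evA Q n (pb (LinearMap.inr ℝ ℂ Q) c) u := by
  rw [evA_ii, evA_ii]
  change evA _ n _ (fun j => LinearMap.inr ℝ ℂ Q (u j)) = _
  rw [← evA_pb]
  congr 2
  have hx : Complex.reLm ∘ₗ LinearMap.fst ℝ ℂ Q ∘ₗ LinearMap.inr ℝ ℂ Q = 0 := by
    ext; simp
  have hy : Complex.imLm ∘ₗ LinearMap.fst ℝ ℂ Q ∘ₗ LinearMap.inr ℝ ℂ Q = 0 := by
    ext; simp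
  simp only [fx, fy, dx, dy, pb_io, mul_assoc, ii_io_mul, map_sub, map_smul, map_mul,
    LinearMap.comp_assoc, hx, hy, map_zero, zero_mul, sub_zero]
  simp

theorem Tp_pos {n : ℕ} {c : Ext (ℂ × Eu n)} {κ : Ext (Eu n)} {a b : Eu n} {u : Fin n → Eu n}
    (h : 0 < evA _ (n + 2) c
      (Matrix.vecCons (1, a) (Matrix.vecCons (Complex.I, b) fun j => (0, u j))) * evA _ n κ u) :
    0 < Tp n c * top n κ := by
  have hκ : pb (LinearMap.inr ℝ ℂ (Eu n)) (pb (LinearMap.snd ℝ ℂ (Eu n)) κ) = κ := by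
    rw [pb_comp, LinearMap.snd_comp_inr, pb_id]
  have h1 := evA_fxfy (pb (LinearMap.snd ℝ ℂ (Eu n)) κ) a b u
  have h2 : Tp n (fx * fy * pb (LinearMap.snd ℝ ℂ (Eu n)) κ) = top n κ := by
    rw [Tp_apply, top_eP, hκ]
  rw [hκ] at h1
  rw [← h1, AlternatingMap.eq_smul_basis_det (bP n) (evA _ (n + 2) c),
    AlternatingMap.eq_smul_basis_det (bP n) (evA _ (n + 2) (fx * fy * _)), ← Tp_eq, ← Tp_eq, h2,
    AlternatingMap.smul_apply, AlternatingMap.smul_apply, smul_eq_mul, smul_eq_mul,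
    mul_mul_mul_comm] at h
  by_contra hs
  exact absurd h (not_lt.2 (mul_nonpos_of_nonpos_of_nonneg (not_lt.1 hs) (mul_self_nonneg _)))

theorem sign_eq_of_pos {s t : ℝ} (h : 0 < s * t) : Real.sign s = Real.sign t := by
  rcases pos_and_pos_or_neg_and_neg_of_mul_pos h with ⟨h2, h3⟩ | ⟨h2, h3⟩
  · rw [Real.sign_of_pos h2, Real.sign_of_pos h3]
  · rw [Real.sign_of_neg h2, Real.sign_of_neg h3]

variable {E E' : Type*} [NormedAddCommGroup E] [NormedSpace ℝ E] [FiniteDimensional ℝ E]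
  [NormedAddCommGroup E'] [NormedSpace ℝ E'] [FiniteDimensional ℝ E']

/-- `g : Y → X` is a smooth embedding of the closed oriented `n`-manifold `(Y, oY)` -/
structure Dv (n : ℕ) (X : Set E) (Y : Set E') (oY : E' → Ext E') (g : E' → E) : Prop where
  clo : Clo n Y
  ori : Ori n Y oY
  smap : SMap Y X g
  inj : InjOn g Y
  imm : ∀ y ∈ Y, ∀ v ∈ Tan Y y, fderiv ℝ g y v = 0 → v = 0

/-- `z` is a positive local equation of `g (Y)` in the oriented `(n+2)`-manifold `(X, o)` at `x` -/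
structure LEq (n : ℕ) (X : Set E) (o : E → Ext E) (Y : Set E') (oY : E' → Ext E') (g : E' → E)
    (z : E → ℂ) (x : E) : Prop where
  near : ∀ᶠ q in 𝓝[X] x, ContDiffAt ℝ ∞ z q ∧ (z q = 0 ↔ q ∈ g '' Y)
  pos : ∀ y ∈ Y, g y = x → ∃ (v₁ v₂ : E) (w : Fin n → E'), v₁ ∈ Tan X x ∧ v₂ ∈ Tan X x ∧
    (∀ j, w j ∈ Tan Y y) ∧ fderiv ℝ z x v₁ = 1 ∧ fderiv ℝ z x v₂ = Complex.I ∧
    0 < evA E (n + 2) (o x) (Matrix.vecCons v₁ (Matrix.vecCons v₂ fun j => fderiv ℝ g y (w j)))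
      * evA E' n (oY y) w

variable {n : ℕ} {X : Set E} {o ψ : E → Ext E} {Y : Set E'} {oY : E' → Ext E'} {g : E' → E}
  {z : E → ℂ} {x : E}

theorem Dv.clo_image (h : Dv n X Y oY g) : Clo n (g '' Y) :=
  R208.CM.clo_image_of_inj h.clo h.smap.smooth h.inj h.imm

theorem Dv.isClosed (h : Dv n X Y oY g) : IsClosed (g '' Y) := h.clo_image.compact.isClosed

theorem Dv.null (h : Dv n X Y oY g) : Null (n + 2) (g '' Y) := Null.of_clo h.clo_image (by omega)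

theorem Dv.exists_inv (h : Dv n X Y oY g) :
    ∃ G : E → E', ContDiff ℝ ∞ G ∧ ∀ y ∈ Y, G (g y) = y :=
  R208.CM.exists_smooth_inv h.clo h.smap.smooth h.inj h.imm

theorem LEq.sm (h : LEq n X o Y oY g z x) (hx : x ∈ X) : ContDiffAt ℝ ∞ z x :=
  (h.near.self_of_nhdsWithin hx).1

theorem LEq.zero_iff (h : LEq n X o Y oY g z x) (hx : x ∈ X) : z x = 0 ↔ x ∈ g '' Y :=
  (h.near.self_of_nhdsWithin hx).2

/-- adapted charts -/
theorem LEq.adapt (hX : Clo (n + 2) X) (hD : Dv n X Y oY g) (h : LEq n X o Y oY g z x) {y : E'}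
    (hy : y ∈ Y) (hyx : g y = x) : ∃ (f : ℂ × Eu n → E) (O : Set E) (ℓ : E → ℂ × Eu n)
      (fY : Eu n → E') (w₀ : Eu n) (r : ℝ), 0 < r ∧
      Loc X f (Metric.ball (0, w₀) r) O ℓ ∧ x ∈ O ∧ Chart n Y fY (Metric.ball w₀ r) ∧ fY w₀ = y ∧
      (∀ p ∈ Metric.ball ((0 : ℂ), w₀) r, z (f p) = p.1 ∧ ContDiffAt ℝ ∞ z (f p)) ∧
      (∀ w ∈ Metric.ball w₀ r, f (0, w) = g (fY w)) ∧
      ∀ y' ∈ Y, g y' ∈ O → y' ∈ fY '' Metric.ball w₀ r := by
  have hx : x ∈ X := hyx ▸ hD.smap.maps hy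
  obtain ⟨G, hG, hGg⟩ := hD.exists_inv
  obtain ⟨fX, WX, OX, ℓX, hlX, hxO⟩ := hX.sub.exists_loc hx
  obtain ⟨fY, WY, OY, ℓY, hlY, hyO⟩ := hD.clo.sub.exists_loc hy
  obtain ⟨N, hNo, hxN, hN⟩ := mem_nhdsWithin.1 h.near
  have hN'o : IsOpen (N ∩ G ⁻¹' OY) := hNo.inter (hlY.oO.preimage hG.continuous)
  have hxN' : x ∈ N ∩ G ⁻¹' OY := ⟨hxN, by rw [mem_preimage, ← hyx, hGg y hy]; exact hyO⟩
  have hl2 := hlX.restrictO hN'o
  have hfu : fX (ℓX x) = x := hlX.right_inv hx hxO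
  have hu₀ : ℓX x ∈ WX ∩ fX ⁻¹' (N ∩ G ⁻¹' OY) :=
    ⟨hlX.maps x hxO, by rw [mem_preimage, hfu]; exact hxN'⟩
  set w₀ := ℓY y with hw₀
  have hw₀W : w₀ ∈ WY := hlY.maps y hyO
  have hfw : fY w₀ = y := hlY.right_inv hy hyO
  set Φ : E → ℂ × Eu n := fun q => (z q, ℓY (G q)) with hΦ
  have hΦC : ∀ q ∈ X, q ∈ N ∩ G ⁻¹' OY → ContDiffAt ℝ ∞ Φ q := fun q hq hqN =>
    (hN ⟨hqN.1, hq⟩).1.prodMk ((hlY.lC' hqN.2).comp q hG.contDiffAt)
  have hTC : ∀ u ∈ WX ∩ fX ⁻¹' (N ∩ G ⁻¹' OY), ContDiffAt ℝ ∞ (fun u => Φ (fX u)) u :=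
    fun u hu => (hΦC _ (hlX.mem hu.1).1 hu.2).comp u (hlX.fC' hu.1)
  have hΦd : HasFDerivAt Φ (fderiv ℝ Φ x) x :=
    ((hΦC x hx hxN').differentiableAt (by simp)).hasFDerivAt
  have hΦ1 : ∀ v, (fderiv ℝ Φ x v).1 = fderiv ℝ z x v := fun v => by
    have := (hasFDerivAt_fst.comp x hΦd).fderiv
    rw [show Prod.fst ∘ Φ = z from rfl] at this
    rw [this]; rfl
  have hfYd : HasFDerivAt fY (fderiv ℝ fY w₀) w₀ :=
    ((hlY.fC' hw₀W).differentiableAt (by simp)).hasFDerivAt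
  have hk : HasFDerivAt (fun w => g (fY w)) ((fderiv ℝ g y).comp (fderiv ℝ fY w₀)) w₀ := by
    have a1 : HasFDerivAt g (fderiv ℝ g y) (fY w₀) := by
      rw [hfw]; exact (hD.smap.diff hy).hasFDerivAt
    exact a1.comp w₀ hfYd
  have hΦk : ∀ a, fderiv ℝ Φ x (fderiv ℝ g y (fderiv ℝ fY w₀ a)) = (0, a) := by
    intro a
    have a1 : HasFDerivAt Φ (fderiv ℝ Φ x) (g (fY w₀)) := by rw [hfw, hyx]; exact hΦd
    have a2 := a1.comp w₀ hk
    have a3 : HasFDerivAt (Φ ∘ fun w => g (fY w)) (ContinuousLinearMap.inr ℝ ℂ (Eu n)) w₀ := by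
      refine (ContinuousLinearMap.inr ℝ ℂ (Eu n)).hasFDerivAt.congr_of_eventuallyEq ?_
      have a4 : ∀ᶠ w in 𝓝 w₀, g (fY w) ∈ N :=
        hk.continuousAt.eventually (hNo.mem_nhds (by simp only [hfw, hyx]; exact hxN))
      filter_upwards [a4, hlY.oW.mem_nhds hw₀W] with w hwN hw
      have hwY := (hlY.mem hw).1
      refine Prod.ext ((hN ⟨hwN, hD.smap.maps hwY⟩).2.2 ⟨_, hwY, rfl⟩) ?_
      change ℓY (G (g (fY w))) = w
      rw [hGg _ hwY, hlY.inv w hw]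
    exact congrArg (fun L => L a) (a2.unique a3)
  have hs : Function.Surjective (fderiv ℝ (fun u => Φ (fX u)) (ℓX x)) := by
    have a1 : HasFDerivAt Φ (fderiv ℝ Φ x) (fX (ℓX x)) := by rw [hfu]; exact hΦd
    have a2 := (a1.comp (ℓX x)
      ((hlX.fC' hu₀.1).differentiableAt (by simp)).hasFDerivAt).fderiv
    rw [show (fun u => Φ (fX u)) = Φ ∘ fX from rfl, a2]
    obtain ⟨v₁, v₂, -, h1, h2, -, h3, h4, -⟩ := h.pos y hy hyx
    rintro ⟨ζ, a⟩
    set v : E := ζ.re • v₁ + ζ.im • v₂ with hv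
    have hv1 : (fderiv ℝ Φ x v).1 = ζ := by
      rw [hΦ1, hv, map_add, map_smul, map_smul, h3, h4]
      apply Complex.ext <;> simp
    have hT : v + fderiv ℝ g y (fderiv ℝ fY w₀ (a - (fderiv ℝ Φ x v).2)) ∈ Tan X (fX (ℓX x)) := by
      rw [hfu]
      refine add_mem (add_mem (Submodule.smul_mem _ _ h1) (Submodule.smul_mem _ _ h2)) ?_
      rw [← hyx]
      refine fderiv_mapsTo_Tan (hD.smap.diff hy) (fun q hq => hD.smap.maps hq) ?_
      rw [← hfw]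
      exact hlY.chart.fderiv_mem hw₀W _
    rw [← hlX.range_eq_Tan hu₀.1] at hT
    obtain ⟨u, hu⟩ := hT
    refine ⟨u, ?_⟩
    rw [ContinuousLinearMap.comp_apply, show fderiv ℝ fX (ℓX x) u = _ from hu, map_add, hΦk]
    exact Prod.ext (by simp [hv1]) (by simp)
  obtain ⟨τ, W₁, O₁, hl3, hp₀, hτ₀, hτ⟩ := Loc.reparam hl2 hTC hu₀ hs (by simp [add_comm])
  have hΦx : Φ (fX (ℓX x)) = (0, w₀) := by
    rw [hfu]
    refine Prod.ext ((h.zero_iff hx).2 ⟨y, hy, hyx⟩) ?_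
    change ℓY (G x) = w₀
    rw [← hyx, hGg y hy]
  rw [hΦx] at hp₀ hτ₀
  obtain ⟨r, hr, hrW⟩ := Metric.isOpen_iff.1 hl3.oW _ hp₀
  have hl4 := hl3.restrict hrW Metric.isOpen_ball
  have hb : ∀ w ∈ Metric.ball w₀ r, ((0 : ℂ), w) ∈ Metric.ball ((0 : ℂ), w₀) r := fun w hw => by
    rw [← ball_prod_same]; exact ⟨Metric.mem_ball_self hr, hw⟩
  have hfX : ∀ p ∈ W₁, fX (τ p) ∈ X := fun p hp => (hlX.mem (hτ p hp).1.1).1
  have hz : ∀ w ∈ Metric.ball w₀ r, w ∈ WY ∧ fX (τ (0, w)) = g (fY w) := by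
    intro w hw
    have hp := hrW (hb w hw)
    obtain ⟨⟨-, a1⟩, a2⟩ := hτ _ hp
    obtain ⟨y', hy', a3⟩ := (hN ⟨a1.1, hfX _ hp⟩).2.1 (congrArg Prod.fst a2)
    have a4 : ℓY (G (fX (τ (0, w)))) = w := congrArg Prod.snd a2
    have a5 : G (fX (τ (0, w))) ∈ OY := a1.2
    rw [← a3, hGg y' hy'] at a4 a5
    rw [← a4, hlY.right_inv hy' a5, a4]
    exact ⟨a4 ▸ hlY.maps y' a5, a3.symm⟩
  refine ⟨fun p => fX (τ p), _, _, fY, w₀, r, hr, hl4, ?_,
    hlY.chart.mono (fun w hw => (hz w hw).1) Metric.isOpen_ball, hfw, fun p hp => ?_,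
    fun w hw => (hz w hw).2, fun y' hy' hO => ?_⟩
  · have := (hl4.mem (Metric.mem_ball_self hr)).2
    rwa [hτ₀, hfu] at this
  · exact ⟨congrArg Prod.fst (hτ p (hrW hp)).2, (hN ⟨(hτ p (hrW hp)).1.2.1, hfX p (hrW hp)⟩).1⟩
  · have a1 : g y' ∈ (fun p => fX (τ p)) '' Metric.ball ((0 : ℂ), w₀) r := by
      rw [hl4.img]; exact ⟨hD.smap.maps hy', hO⟩
    obtain ⟨p, hp, a2⟩ := a1
    obtain ⟨⟨-, a3⟩, a4⟩ := hτ _ (hrW hp)
    have a5 : ℓY (G (fX (τ p))) = p.2 := congrArg Prod.snd a4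
    have a6 : G (fX (τ p)) ∈ OY := a3.2
    have a7 : fX (τ p) = g y' := a2
    rw [a7, hGg y' hy'] at a5 a6
    refine ⟨ℓY y', ?_, hlY.right_inv hy' a6⟩
    rw [← ball_prod_same] at hp
    rw [a5]; exact hp.2

/-- extension by zero of the pull-back of a form supported in a chart -/
theorem Loc.ext_zero {P : Type*} [NormedAddCommGroup P] [NormedSpace ℝ P] [FiniteDimensional ℝ P]
    {f : P → E} {W : Set P} {O : Set E} {ℓ : E → P} (hX : IsCompact X) (h : Loc X f W O ℓ)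
    (hψ : ∀ q ∈ X, ContDiffAt ℝ 1 ψ q) (hs : tsupport ψ ⊆ O) :
    ∃ b : P → Ext P, ContDiff ℝ 1 b ∧ HasCompactSupport b ∧ (∀ p ∈ W, b =ᶠ[𝓝 p] pull f ψ) ∧
      ∀ p, p ∉ W → b =ᶠ[𝓝 p] fun _ => 0 := by
  classical
  have hK : IsCompact (ℓ '' (X ∩ tsupport ψ)) :=
    (hX.inter_right (isClosed_tsupport ψ)).image_of_continuousOn
      (h.lC.continuousOn.mono fun q hq => hs hq.2)
  have hKW : ℓ '' (X ∩ tsupport ψ) ⊆ W := by
    rintro _ ⟨q, hq, rfl⟩; exact h.maps q (hs hq.2)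
  set b : P → Ext P := W.indicator (pull f ψ) with hb
  have hbV : ∀ u ∈ W, b =ᶠ[𝓝 u] pull f ψ := by
    intro u hu
    filter_upwards [h.oW.mem_nhds hu] with v hv
    rw [hb, indicator_of_mem hv]
  have hb0 : ∀ u, u ∉ ℓ '' (X ∩ tsupport ψ) → b =ᶠ[𝓝 u] fun _ => 0 := by
    intro u hu
    filter_upwards [hK.isClosed.isOpen_compl.mem_nhds hu] with v hv
    by_cases hvV : v ∈ W
    · have : f v ∉ tsupport ψ := fun h' => hv ⟨f v, ⟨(h.mem hvV).1, h'⟩, h.inv v hvV⟩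
      rw [hb, indicator_of_mem hvV, pull, image_eq_zero_of_notMem_tsupport this, map_zero]
    · rw [hb, indicator_of_notMem hvV]
  refine ⟨b, contDiff_iff_contDiffAt.2 fun u => ?_,
    HasCompactSupport.intro hK fun u hu => (hb0 u hu).eq_of_nhds, hbV,
    fun p hp => hb0 p fun h' => hp (hKW h')⟩
  by_cases hu : u ∈ W
  · exact (contDiffAt_pull (n := 2) ((h.fC' hu).of_le two_le) (by norm_num)
      (hψ _ (h.mem hu).1)).congr_of_eventuallyEq (hbV u hu)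
  · exact contDiffAt_const.congr_of_eventuallyEq (hb0 u fun h' => hu (hKW h'))

theorem LEq.sing_on (hX : Clo (n + 2) X) (ho : Ori (n + 2) X o) (hD : Dv n X Y oY g)
    (h : LEq n X o Y oY g z x) {y : E'} (hy : y ∈ Y) (hyx : g y = x) :
    ∃ U ∈ 𝓝 x, ∀ ψ : E → Ext E, (∀ q ∈ X, ContDiffAt ℝ 1 ψ q) → tsupport ψ ⊆ U →
      Int (n + 2) X o (fun q => ang z q * d ψ q) ∧
        J (n + 2) X o (fun q => ang z q * d ψ q) = J n Y oY (pull g ψ) := by
  obtain ⟨f, O, ℓ, fY, w₀, r, hr, hl, hxO, hcY, hfw, hz, hfg, hY⟩ := h.adapt hX hD hy hyx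
  set W := Metric.ball ((0 : ℂ), w₀) r with hW
  set V := Metric.ball w₀ r with hV
  have hb : ∀ w, ((0 : ℂ), w) ∈ W ↔ w ∈ V := fun w => by
    rw [hW, ← ball_prod_same]; exact ⟨fun h => h.2, fun h => ⟨Metric.mem_ball_self hr, h⟩⟩
  have hw₀ : w₀ ∈ V := Metric.mem_ball_self hr
  have hfd : ∀ p ∈ W, DifferentiableAt ℝ f p := fun p hp => (hl.fC' hp).differentiableAt (by simp)
  have hl' := hl.comp_equiv (eP n)
  have hc := hl'.chart
  have hpe : ∀ (a : E → Ext E) (u : Eu (n + 2)), eP n u ∈ W →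
      top (n + 2) (pull (fun u => f (eP n u)) a u) = Tp n (pull f a (eP n u)) := by
    intro a u hu
    have := pull_comp (om := a) (eP n).differentiableAt (hfd _ hu)
    rw [show (fun u => f (eP n u)) = f ∘ eP n from rfl, ← this, pull, (eP n).fderiv]
    rfl
  have hzf : ∀ p ∈ W, (fun p => z (f p)) =ᶠ[𝓝 p] Prod.fst := fun p hp => by
    filter_upwards [hl.oW.mem_nhds hp] with q hq using (hz q hq).1
  have hinr : ∀ w ∈ V, ∀ a : E → Ext E,
      pb (LinearMap.inr ℝ ℂ (Eu n)) (pull f a (0, w)) = pull fY (pull g a) w := by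
    intro w hw a
    have a1 : (fun w => f (0, w)) =ᶠ[𝓝 w] g ∘ fY := by
      filter_upwards [hcY.isOpen.mem_nhds hw] with v hv using hfg v hv
    rw [pull_comp (hcY.differentiableAt hw) (hD.smap.diff (hcY.mem hw)), ← pull_congr a1]
    have a2 := pull_comp (f := ContinuousLinearMap.inr ℝ ℂ (Eu n)) (g := f) (om := a) (x := w)
      (ContinuousLinearMap.inr ℝ ℂ (Eu n)).differentiableAt (hfd _ ((hb w).2 hw))
    rw [pull, (ContinuousLinearMap.inr ℝ ℂ (Eu n)).fderiv] at a2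
    exact a2
  -- the signs
  obtain ⟨ε, hε⟩ := hc.exists_sign ho
    (((convex_ball _ r).linear_preimage (eP n).toLinearEquiv.toLinearMap).isPreconnected)
  obtain ⟨ε', hε'⟩ := hcY.exists_sign hD.ori (convex_ball _ r).isPreconnected
  have hεε : ε = ε' := by
    have hp₀ : ((0 : ℂ), w₀) ∈ W := (hb _).2 hw₀
    have hfx : f (0, w₀) = x := by rw [hfg _ hw₀, hfw, hyx]
    have a0 : eP n ((eP n).symm (0, w₀)) ∈ W := by rw [(eP n).apply_symm_apply]; exact hp₀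
    rw [← hε _ a0, ← hε' _ hw₀, hpe _ _ a0, (eP n).apply_symm_apply]
    obtain ⟨v₁, v₂, w, h1, h2, h3, h4, h5, h6⟩ := h.pos y hy hyx
    rw [← hfx, ← hl.range_eq_Tan hp₀] at h1 h2
    obtain ⟨⟨s₁, a⟩, h1⟩ := h1
    obtain ⟨⟨s₂, b⟩, h2⟩ := h2
    have hzd : ∀ p, fderiv ℝ z x (fderiv ℝ f (0, w₀) p) = p.1 := fun p => by
      have a1 : HasFDerivAt z (fderiv ℝ z x) (f (0, w₀)) := by
        have := ((hz _ hp₀).2.differentiableAt (by simp)).hasFDerivAt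
        rwa [hfx] at this ⊢
      have a2 := (a1.comp _ (hfd _ hp₀).hasFDerivAt).unique
        (hasFDerivAt_fst.congr_of_eventuallyEq (hzf _ hp₀))
      exact congrArg (fun L => L p) a2
    have e1 : s₁ = 1 := by rw [← h4, ← h1]; exact (hzd (s₁, a)).symm
    have e2 : s₂ = Complex.I := by rw [← h5, ← h2]; exact (hzd (s₂, b)).symm
    rw [← hfw, ← range_fderiv_eq_Tan hcY hw₀] at h3
    choose u hu using h3
    have hgu : ∀ j, fderiv ℝ g y (w j) = fderiv ℝ f (0, w₀) (0, u j) := fun j => by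
      have a1 : HasFDerivAt g (fderiv ℝ g y) (fY w₀) := by
        rw [hfw]; exact (hD.smap.diff hy).hasFDerivAt
      have a2 := a1.comp w₀ (hcY.differentiableAt hw₀).hasFDerivAt
      have a3 : HasFDerivAt (g ∘ fY)
          ((fderiv ℝ f (0, w₀)).comp (ContinuousLinearMap.inr ℝ ℂ (Eu n))) w₀ := by
        refine ((hfd _ hp₀).hasFDerivAt.comp w₀
          (ContinuousLinearMap.inr ℝ ℂ (Eu n)).hasFDerivAt).congr_of_eventuallyEq ?_
        filter_upwards [hcY.isOpen.mem_nhds hw₀] with v hv using (hfg v hv).symm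
      rw [← hu j]
      exact congrArg (fun L => L (u j)) (a2.unique a3)
    refine sign_eq_of_pos (Tp_pos (a := a) (b := b) (u := u) ?_)
    rw [pull, pull, evA_pb, evA_pb, hfx, hfw]
    convert h6 using 3
    · funext i
      refine Fin.cases ?_ (fun i => Fin.cases ?_ (fun j => ?_) i) i
      · rw [← e1]; exact h1
      · rw [← e2]; exact h2
      · exact (hgu j).symm
    · exact funext hu
  refine ⟨O, hl.oO.mem_nhds hxO, fun ψ hψ hs => ?_⟩
  obtain ⟨b, hbC, hbs, hbW, hb0⟩ := Loc.ext_zero hX.compact hl hψ hs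
  have hdc : Continuous (d b) := (wd _).continuous.comp (hbC.continuous_fderiv one_ne_zero)
  have hin : ∀ u ∈ eP n ⁻¹' W, top (n + 2) (pull (fun u => f (eP n u))
      (fun q => ang z q * d ψ q) u) * Real.sign (top (n + 2) (pull (fun u => f (eP n u)) o u))
      = Tp n (ang Prod.fst (eP n u) * d b (eP n u)) * ε := by
    intro u hu
    rw [hε u hu, hpe _ _ hu, pull_mul, ang_comp (hfd _ hu) ((hz _ hu).2.differentiableAt (by simp)),
      ang_congr (hzf _ hu), d_congr (hbW _ hu), d_pull ((hl.fC' hu).of_le two_le)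
        ((hψ _ (hl.mem hu).1).differentiableAt (by simp))]
  have hout : ∀ q ∈ X, q ∉ (fun u => f (eP n u)) '' (eP n ⁻¹' W) → ang z q * d ψ q = 0 := by
    intro q hq hq'
    rw [hl'.img] at hq'
    rw [d_of_notMem fun h' => hq' ⟨hq, hs h'⟩, mul_zero]
  have hmp := measurePreserving_eP n
  have hme : MeasurableEmbedding (eP n) := (eP n).toHomeomorph.measurableEmbedding
  constructor
  · refine Int.of_chart hX hc hout ?_
    rw [integrableOn_congr_fun hin hc.isOpen.measurableSet]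
    exact ((hmp.integrable_comp_emb hme).2
      ((flat_int volume (Tp n) hdc (hasCompactSupport_d hbs)).mul_const ε)).integrableOn
  · rw [J_eq_chart hX hc fun q hq hq' => by rw [hout q hq hq']; simp,
      setIntegral_congr_fun hc.isOpen.measurableSet hin,
      setIntegral_eq_integral_of_forall_compl_eq_zero fun u hu => by
        rw [d_congr (hb0 _ hu), d_const, mul_zero, map_zero, zero_mul],
      hmp.integral_comp hme (fun p => Tp n (ang Prod.fst p * d b p) * ε), integral_mul_const,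
      flat_pl volume (Tp n) hbC hbs, J_eq_chart hD.clo hcY fun q hq hq' => by
        rw [pull, image_eq_zero_of_notMem_tsupport fun h' => hq' (hY q hq (hs h')), map_zero]; simp,
      ← integral_mul_const, ← setIntegral_eq_integral_of_forall_compl_eq_zero (s := V)
        fun w hw => by
          rw [(hb0 _ fun h' => hw ((hb w).1 h')).eq_of_nhds, mul_zero, map_zero, zero_mul]]
    refine setIntegral_congr_fun hcY.isOpen.measurableSet fun w hw => ?_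
    beta_reduce
    rw [hε' w hw, hεε, Tp_apply, top_eP, (hbW _ ((hb w).2 hw)).eq_of_nhds, hinr w hw]

/-- **local Poincaré–Lelong formula** -/
theorem LEq.sing (hX : Clo (n + 2) X) (ho : Ori (n + 2) X o) (hD : Dv n X Y oY g)
    (h : LEq n X o Y oY g z x) :
    ∃ U ∈ 𝓝 x, ∀ ψ : E → Ext E, (∀ q ∈ X, ContDiffAt ℝ 1 ψ q) → tsupport ψ ⊆ U →
      Int (n + 2) X o (fun q => ang z q * d ψ q) ∧
        J (n + 2) X o (fun q => ang z q * d ψ q) = J n Y oY (pull g ψ) := by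
  by_cases hxY : x ∈ g '' Y
  · obtain ⟨y, hy, hyx⟩ := hxY
    exact h.sing_on hX ho hD hy hyx
  obtain ⟨N, hNo, hxN, hN⟩ := mem_nhdsWithin.1 h.near
  refine ⟨N ∩ (g '' Y)ᶜ, (hNo.inter hD.isClosed.isOpen_compl).mem_nhds ⟨hxN, hxY⟩,
    fun ψ hψ hs => ?_⟩
  have hz : ∀ q ∈ X, q ∈ tsupport ψ → ContDiffAt ℝ ∞ z q ∧ z q ≠ 0 := fun q hq hq' =>
    ⟨(hN ⟨(hs hq').1, hq⟩).1, fun h0 => (hs hq').2 ((hN ⟨(hs hq').1, hq⟩).2.1 h0)⟩
  obtain ⟨h1, -, h2⟩ := J_mul_d (a := ang z) hX ho hψ fun q hq hq' =>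
    ⟨contDiffAt_ang (n := 2) ((hz q hq hq').1.of_le two_le) (by norm_num) (hz q hq hq').2,
      inv_ang z q⟩
  refine ⟨h1, ?_⟩
  rw [h2, J_congr' (om' := fun _ => 0) hX, J_zero, J_congr' (om' := fun _ => 0) hD.clo, J_zero]
  · intro y hy
    rw [pull, image_eq_zero_of_notMem_tsupport fun h' => (hs h').2 ⟨y, hy, rfl⟩, map_zero]
  · intro q hq
    by_cases hq' : q ∈ tsupport ψ
    · rw [d_ang ((hz q hq hq').1.of_le two_le) (hz q hq hq').2, zero_mul]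
    · rw [image_eq_zero_of_notMem_tsupport hq', mul_zero]

end Crest.Agent.X262.PL
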