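import Crest.Agent.X262.PL.C1S
import Crest.Agent.X262.Form88.Snc

/-!
# Row 262, PL (helper92), part Div: smooth divisors on projective models

* `dv_map`, `inj_rd`, `IsDv.dv_ne` : differentials of regular functions along a morphism;
* `dvP`, `lEqP`, `exists_th` : a smooth divisor gives `Dv`, `LEq`, `Th`;
* `pl0I`, `pl0`, `bc1`, `bc2` for `thOf typ c1 Lam`.
-/

set_option autoImplicit false
set_option linter.unusedSectionVars false

open Set Filter Topology Module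
open scoped ContDiff
open Crest.Agent.R208.F Crest.Agent.R208.FI Crest.Agent.R208.CW Crest.Agent.R208.T
open Crest.Agent.R273.Map_835 (rd mem_dm)
open Crest.Agent.X277 Crest.Agent.X277.Lef Crest.Agent.X277.AN.G1 Crest.Agent.X277.BD
  Crest.Agent.X277.BD.Br
open Crest.Agent.X262.Man Crest.Agent.X262.Coh

noncomputable section

namespace Crest.Agent.X262.PL

section Loc

variable {F K : Type} [Field F] [Algebra ℂ F] [Field K] [Algebra ℂ K] {P : PModel ℂ F}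
  {P' : PModel ℂ K} {n m : ℕ}

theorem cori_an (A : AnP P n) : (emb A).COri (em P).ori := by
  obtain rfl := Man.dim_eq A
  exact cori_emb (em P).cori

theorem integ_eq_intP {k : ℕ} (hk : k = 2 * dim ℂ F) (hc : Clo k (XP P))
    (ho : Ori k (XP P) (em P).ori) : integ hc ho = intP P := by
  subst hk
  rfl

variable (μ : Mor P' P) {A : AnP P n} {B : AnP P' m} {k : B.A.ι} {i : A.A.ι} {y : Pts P'}

/-- chain rule -/
theorem dv_map (hk : y ∈ (B.A.e k).source) (hi : μ.map y ∈ (A.A.e i).source) (w : R275.Geo.Cn m) {f : F}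
    (hf : f ∈ (lp (μ.map y)).O) : B.dv k y w (μ.p.π f)
      = A.dv i (μ.map y) (fderiv ℂ (rd B.A A.A μ.map k i) (B.A.e k y) w) f := by
  have h0 := mem_dm (p := μ.map) hk hi
  have h1 : rd B.A A.A μ.map k i (B.A.e k y) = A.A.e i (μ.map y) := by
    rw [rd, (B.A.e k).left_inv hk]
  have h2 : B.rd k (ev (μ.p.π f)) =ᶠ[𝓝 (B.A.e k y)] A.rd i (ev f) ∘ rd B.A A.A μ.map k i := by
    filter_upwards [AnP.eventually_rd hk (μ.continuous.continuousAt.eventually (eventually_mem hf)),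
      ((μ.holMap B A).isOpen_dm k i).mem_nhds h0] with u hu hu'
    change _ = ev f ((A.A.e i).symm (A.A.e i _))
    rw [(A.A.e i).left_inv hu'.2]
    exact (μ.ev_map hu.2.2).symm
  rw [AnP.dv, AnP.dv, h2.fderiv_eq, fderiv_comp _ (h1 ▸ AnP.diffAt hi hf)
    ((μ.holMap B A).diffAt h0), h1]
  rfl

theorem inj_rd (hs : ∀ g ∈ (lp y).O, ∃ f ∈ (lp (μ.map y)).O, μ.p.π f = g)
    (hk : y ∈ (B.A.e k).source) (hi : μ.map y ∈ (A.A.e i).source) :
    Function.Injective (fderiv ℂ (rd B.A A.A μ.map k i) (B.A.e k y)) := by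
  refine (injective_iff_map_eq_zero _).2 fun w hw => ?_
  ext l
  obtain ⟨f, hf, h1⟩ := hs _ (AnP.z_mem hk l)
  rw [← AnP.dv_z hk, ← h1, dv_map μ hk hi w hf, hw, AnP.dv, map_zero]
  rfl

/-- a generator of the kernel has nonzero differential -/
theorem dv_ne (hmn : m < n) (hs : ∀ g ∈ (lp y).O, ∃ f ∈ (lp (μ.map y)).O, μ.p.π f = g)
    (hi : μ.map y ∈ (A.A.e i).source) {t : F} (ht : t ∈ (lp (μ.map y)).O) (h0 : μ.p.π t = 0)
    (ht0 : t ≠ 0) (hker : ∀ f ∈ (lp (μ.map y)).O, μ.p.π f = 0 → f / t ∈ (lp (μ.map y)).O)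
    (B : AnP P' m) : fderiv ℂ (A.rd i (ev t)) (A.A.e i (μ.map y)) ≠ 0 := by
  intro hd
  obtain ⟨k, hk⟩ := B.A.cover y
  choose! L hL hπ using hs
  have key : ∀ w : R275.Geo.Cn n, fderiv ℂ (rd B.A A.A μ.map k i) (B.A.e k y)
      (WithLp.toLp 2 fun l => A.dv i (μ.map y) w (L (B.z k l))) = w := fun w => by
    ext r
    have hf := AnP.z_mem hi r
    obtain ⟨c, hc, h1⟩ := (B.crd k y hk).gen _ (μ.π_mem hf)
    have h2 : ∀ l, L (B.z k l) - algebraMap ℂ F (ev (B.z k l) y) ∈ (lp (μ.map y)).O := fun l =>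
      sub_mem (hL _ (AnP.z_mem hk l)) (algebraMap_mem _ _)
    have h3 : ∀ l ∈ Finset.univ, L (c l) * (L (B.z k l) - algebraMap ℂ F (ev (B.z k l) y))
        ∈ (lp (μ.map y)).O := fun l _ => mul_mem (hL _ (hc l)) (h2 l)
    set g := ∑ l, L (c l) * (L (B.z k l) - algebraMap ℂ F (ev (B.z k l) y)) with hg
    have h4 : g ∈ (lp (μ.map y)).O := sum_mem h3
    have h5 : ∀ l, μ.p.π (L (B.z k l) - algebraMap ℂ F (ev (B.z k l) y))
        = B.z k l - algebraMap ℂ K (ev (B.z k l) y) := fun l => by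
      rw [Plc.π_sub (μ.mem_O (hL _ (AnP.z_mem hk l))) (algebraMap_mem _ _), hπ _ (AnP.z_mem hk l),
        μ.p.π_alg]
    have h6 : μ.p.π g = ∑ l, c l * (B.z k l - algebraMap ℂ K (ev (B.z k l) y)) := by
      have := map_sum μ.p.hom (fun l => ⟨_, μ.mem_O (h3 l (Finset.mem_univ l))⟩) Finset.univ
      rw [Plc.hom_apply, AddSubmonoidClass.coe_finsetSum] at this
      refine this.trans (Finset.sum_congr rfl fun l _ => ?_)
      rw [Plc.hom_apply, μ.p.π_mul (μ.mem_O (hL _ (hc l))) (μ.mem_O (h2 l)), hπ _ (hc l), h5]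
    have h7 : A.z i r - g - algebraMap ℂ F (ev (μ.p.π (A.z i r)) y) ∈ (lp (μ.map y)).O :=
      sub_mem (sub_mem hf h4) (algebraMap_mem _ _)
    have h8 := hker _ h7 (by
      rw [Plc.π_sub (μ.mem_O (sub_mem hf h4)) (algebraMap_mem _ _), Plc.π_sub (μ.mem_O hf)
        (μ.mem_O h4), h6, μ.p.π_alg, sub_sub, add_comm, ← h1, sub_self])
    have h9 := AnP.dv_mul hi w ht h8
    rw [mul_div_cancel₀ _ ht0, μ.ev_map ht, h0, show ev (0 : K) y = 0 from LP.v_zero _,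
      zero_mul, zero_add,
      show A.dv i (μ.map y) w t = 0 by rw [AnP.dv, hd]; rfl, mul_zero,
      AnP.dv_sub_alg hi w (sub_mem hf h4)] at h9
    have h10 := AnP.dv_add hi w (sub_mem hf h4) h4
    rw [sub_add_cancel, h9, zero_add, AnP.dv_z hi, hg, AnP.dv_sum hi w _ h3] at h10
    rw [← AnP.dv_z hi, ← dv_map μ hk hi _ hf, AnP.dv_eq hk _ hc h1, h10]
    refine Finset.sum_congr rfl fun l _ => ?_
    rw [AnP.dv_mul hi w (hL _ (hc l)) (h2 l), μ.ev_map (h2 l), h5, μ.ev_map (hL _ (hc l)),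
      hπ _ (hc l), AnP.dv_sub_alg hi w (hL _ (AnP.z_mem hk l)),
      show ev (B.z k l - algebraMap ℂ K (ev (B.z k l) y)) y = 0 from
        LP.v_sub_v (AnP.z_mem hk l), zero_mul, add_zero]
  have h := LinearMap.finrank_le_finrank_of_surjective
    (f := (fderiv ℂ (rd B.A A.A μ.map k i) (B.A.e k y) :
      R275.Geo.Cn m →ₗ[ℂ] R275.Geo.Cn n)) fun w => ⟨_, key w⟩
  simp only [finrank_euclideanSpace_fin] at h
  omega

end Loc

variable {D X : SV} {j : Hom D X} {a : BD ℂ X.F}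

theorem dv_on (h : IsDv j a) : a ∈ X.On := fun x => by
  by_cases hx : x ∈ range j.map
  · obtain ⟨y, rfl⟩ := hx
    exact (h.eqn y).elim fun t ht => ⟨_, ht.2.1⟩
  · exact ⟨1, h.off x hx⟩

theorem dv_nonneg (h : IsDv j a) : 0 ≤ a := le_of_at (P := X.P) fun x => by
  by_cases hx : x ∈ range j.map
  · obtain ⟨y, rfl⟩ := hx
    obtain ⟨t, h1, h2, -⟩ := h.eqn y
    exact ⟨1, _, at_zero _, h2, by simpa using h1⟩
  · exact ⟨1, 1, at_zero _, h.off x hx, by simp⟩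

theorem dv_ker (h : IsDv j a) {y : D.Pt} {t : X.F} (ht : At a (j.map y) t⁻¹) {f : X.F}
    (hf : f ∈ (lp (j.map y)).O) : j.p.π f = 0 ↔ f / t ∈ (lp (j.map y)).O := by
  obtain ⟨s, -, h2, h3⟩ := h.eqn y
  have key : ∀ {s t : X.F}, At a (j.map y) s⁻¹ → At a (j.map y) t⁻¹ →
      f / s ∈ (lp (j.map y)).O → f / t ∈ (lp (j.map y)).O := fun {s t} hs ht h => by
    have h1 := mul_mem h (LP.mem_of_ne (ht.ev_div_ne hs))
    rwa [div_eq_mul_inv f, mul_assoc, mul_div_cancel₀ _ hs.ne, ← div_eq_mul_inv] at h1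
  exact (h3 f hf).trans ⟨key h2 ht, key ht h2⟩

theorem dv_π (h : IsDv j a) {y : D.Pt} {t : X.F} (ht : At a (j.map y) t⁻¹) : j.p.π t = 0 :=
  (dv_ker h ht (mem_of_at (dv_nonneg h) ht)).2 (by
    rw [div_self (inv_eq_zero.not.1 ht.ne)]; exact one_mem _)

theorem dv_zero_iff (h : IsDv j a) {x : X.Pt} {t : X.F} (ht : At a x t⁻¹) :
    ev t x = 0 ↔ x ∈ range j.map := by
  constructor
  · intro h0
    by_contra hx
    exact (h.off x hx).ev_div_ne ht (by rwa [one_div, _root_.inv_inv])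
  · rintro ⟨y, rfl⟩
    rw [j.ev_map (mem_of_at (dv_nonneg h) ht), dv_π h ht]
    exact LP.v_zero _

theorem dvP (h : IsEmb j) {m : ℕ} (hm : D.dim = m) :
    Dv (2 * m) (XP X.P) (XP D.P) (em D.P).ori (ambM j) := by
  subst hm
  exact dv_of_hol (em X.P) (em D.P) (j.holMap _ _) (ambM_j j)
    (fun _ => (contDiff_ambM j).contDiffAt) (oriP D.P) h.1
    fun y _ _ hk hi => inj_rd j (h.2 y) hk hi

theorem lEqP (h : IsDv j a) {m : ℕ} (hm : D.dim = m) {x : X.Pt} {t : X.F} (ht : At a x t⁻¹) :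
    LEq (2 * m) (XP X.P) (em X.P).ori (XP D.P) (em D.P).ori (ambM j) (fa X.P t) (jP X.P x) := by
  subst hm
  obtain ⟨A⟩ : Nonempty (AnP X.P (D.dim + 1)) := h.dim_eq ▸ nonempty_an X.P
  have h0 := dv_nonneg h
  refine lEq_of_hol (em D.P) (emb A) (j.holMap _ A) (ambM_j j)
    (fun _ => (contDiff_ambM j).differentiable (by simp) _) (cori_an A).pos (em D.P).cori.pos
    (fun y _ _ hk hi => inj_rd j (h.emb.2 y) hk hi)
    (ht.eventually.mono fun y hy => ⟨fa_sm (mem_of_at h0 hy), ?_⟩) ?_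
  · rw [emb_j, fa_j (mem_of_at h0 hy), dv_zero_iff h hy]
  · rintro ⟨y, rfl⟩
    obtain ⟨i, hi⟩ := A.A.cover (j.map y)
    have h1 := mem_of_at h0 ht
    have h2 : (fun w => fa X.P t ((emb A).par i w)) =ᶠ[𝓝 (A.A.e i (j.map y))] A.rd i (ev t) :=
      (AnP.eventually_rd hi (eventually_mem h1)).mono fun w hw => fa_j hw.2.2
    refine ⟨i, hi, (AnP.diffAt hi h1).congr_of_eventuallyEq h2, ?_⟩
    rw [h2.fderiv_eq]
    exact dv_ne j (Nat.lt_succ_self _) (h.emb.2 y) hi h1 (dv_π h ht) (inv_eq_zero.not.1 ht.ne)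
      (fun f hf => (dv_ker h ht hf).1) (an D.P)

theorem clo_succ {m : ℕ} (hm : m + 1 = X.dim) : Clo (2 * m + 2) (XP X.P) := by
  have h := cloP X.P
  rwa [show dim ℂ X.F = m + 1 from hm.symm] at h

theorem ori_succ {m : ℕ} (hm : m + 1 = X.dim) : Ori (2 * m + 2) (XP X.P) (em X.P).ori := by
  have h : ∀ k, k = 2 * dim ℂ X.F → Ori k (XP X.P) (em X.P).ori := fun k hk => hk ▸ oriP X.P
  exact h _ (by rw [show dim ℂ X.F = m + 1 from hm.symm]; ring)

/-- a smooth divisor with a singular connection form -/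
theorem exists_th (h : IsDv j a) : ∃ θ c, Hom 1 θ ∧ Hom 2 c ∧
    (∀ (x : X.Pt) (t : X.F), At a x t⁻¹ → Sg (XP X.P) θ c (fa X.P t) (jP X.P x)) ∧
    ∃ hT : Th (2 * D.dim) (XP X.P) (em X.P).ori (XP D.P) (em D.P).ori (ambM j) θ c,
      hT.cH = c1 X a := by
  obtain ⟨c, hc⟩ := exists_crv (dv_on h)
  obtain ⟨θ, h1, h2, h3⟩ := hc.exists_sg (dv_nonneg h)
  refine ⟨θ, c, h1, hc.deg, h3, ⟨clo_succ h.dim_eq, ori_succ h.dim_eq, dvP h.emb rfl, hc.ec.sm,
    hc.ec.inv, ?_, fun q => inv_of_one (h1 q), ?_⟩, hc.c1_eq.symm⟩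
  · rintro _ ⟨x, rfl⟩ hx
    exact h2 x (h.off x fun hx' => hx ((image_amb (em X.P) (em D.P) (ambM_j j)).2 hx'))
  · rintro _ ⟨x, rfl⟩
    obtain ⟨g, hg⟩ := dv_on h x
    rw [← _root_.inv_inv g] at hg
    exact ⟨_, lEqP h rfl hg, h3 x _ hg⟩

/-- **Poincaré-Lelong**, integrated form -/
theorem pl0I (h : IsDv j a) (y : HP X.P) : intP D.P (pullH j y) = intP X.P (c1 X a * y) := by
  obtain ⟨θ, c, -, -, -, hT, h1⟩ := exists_th h
  have h2 := hT.pl0 y
  rw [h1, integ_eq_intP (by rw [← show D.dim + 1 = dim ℂ X.F from h.dim_eq]; ring),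
    integ_eq_intP rfl] at h2
  exact h2.symm

variable {typ : ∀ X : SV, ℕ → ℕ → Submodule ℂ (HP X.P)} {Lam : ∀ X : SV, AddSubgroup (HP X.P)}

theorem gys_eq_push (hP : (thOf typ c1 Lam).PD) (h : IsDv j a) {θ c : Hm X.P.N → Ext (Hm X.P.N)}
    (hT : Th (2 * D.dim) (XP X.P) (em X.P).ori (XP D.P) (em D.P).ori (ambM j) θ c) (x : HP D.P) :
    hT.gys x = (thOf typ c1 Lam).push j x := hP.eq_push fun y => by
  have h2 := hT.gys_adj x y
  rwa [integ_eq_intP (by rw [← show D.dim + 1 = dim ℂ X.F from h.dim_eq]; ring),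
    integ_eq_intP rfl] at h2

theorem pl0 (hP : (thOf typ c1 Lam).PD) : (thOf typ c1 Lam).PL0 := fun _ _ h =>
  (hP.eq_push fun y => (pl0I h y).symm.trans (by rw [one_mul])).symm

theorem bc2 (hP : (thOf typ c1 Lam).PD) : (thOf typ c1 Lam).BC2 := fun _ _ h x => by
  obtain ⟨θ, c, -, -, -, hT, h1⟩ := exists_th h
  have h2 := hT.gys_self x
  rwa [gys_eq_push hP h hT, h1] at h2

theorem bc1 (hP : (thOf typ c1 Lam).PD) : (thOf typ c1 Lam).BC1 := by
  intro D X B j a u ι _ G v e m w h hv hu hc x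
  obtain ⟨θ, c, h1, h2, h3, hT, -⟩ := exists_th h
  rw [← gys_eq_push hP h hT]
  rcases Nat.eq_zero_or_eq_succ_pred B.dim with hB | hB
  · have : IsEmpty ι := ⟨fun i => by have := (hv i).dim_eq; omega⟩
    obtain ⟨z, hz, -, h4⟩ := hT.gys_rep x
    rw [Finset.univ_eq_empty, Finset.sum_empty, h4]
    refine (H.map_cls _ _).trans ((cls_congr (h' := (Z _).zero_mem) fun q hq => ?_).trans
      (map_zero (H.mk _)))
    have h5 : Hom 2 (hT.tube.τ θ c) := h2.add (Hom.d fun q => (h1 q).smul _)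
    have h6 : res (XP B.P) q (pull (ambM u) (hT.tube.τ θ c) q) = 0 :=
      ((h5.pull q).pb _).eq_zero (by
        rw [(cloP B.P).finrank_Tan hq, show dim ℂ B.F = 0 from hB]; norm_num)
    rw [show hT.tube.gys θ c z = fun q => Cx.ofR (hT.tube.τ θ c q) * hT.tube.ext z q from rfl,
      pullC_mul, pullC_ofR, map_mul, Pi.zero_apply, map_zero,
      show rs (XP B.P) q (Cx.ofR (pull (ambM u) (hT.tube.τ θ c) q)) = 0 from
        Cx.ext h6 (map_zero _), zero_mul]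
  obtain ⟨k, hk⟩ : ∃ k, k + 1 = B.dim := ⟨_, hB.symm⟩
  have hG : ∀ i, (G i).dim = k := fun i => by have := (hv i).dim_eq; omega
  refine hP.ext fun b => ?_
  have h4 := hT.gys_bc (F' := fun i => Hm (G i).P.N) (clo_succ hk) (ori_succ hk) (smapM u)
    (fun i => dvP (hv i).emb (hG i)) (PLd.of_sg (k := m) ?_) (fun i => smapM (w i)) ?_ x b
  · rw [integ_eq_intP (by rw [← show k + 1 = dim ℂ B.F from hk]; ring)] at h4
    refine h4.trans ?_
    rw [Finset.sum_mul, map_sum]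
    refine Finset.sum_congr rfl fun i _ => ?_
    rw [integ_eq_intP (by rw [← hG i]), smul_mul_assoc, map_nsmul, hP.push_spec, nsmul_eq_mul]
    rfl
  · rintro _ ⟨y, rfl⟩
    obtain ⟨g, hg⟩ := dv_on h (u.map y)
    rw [← _root_.inv_inv g] at hg
    choose s hs using fun i => dv_on (hv i) y
    replace hs : ∀ i, At (e i) y (s i)⁻¹⁻¹ := fun i => by rw [_root_.inv_inv]; exact hs i
    refine ⟨fun i => fa B.P (s i)⁻¹, fun i => lEqP (hv i) (hG i) (hs i), Sg.unit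
      (ε := fa B.P ((∏ i, (s i)⁻¹⁻¹ ^ m i) / u.p.π (g⁻¹⁻¹ / 1)))
      (Sg.pull (smapM u) (jP_mem y) (by rw [ambM_j]; exact h3 _ _ hg)) (ev_XP.2 ?_)⟩
    filter_upwards [eventually_all.2 fun i => (hs i).eventually,
      u.continuous.continuousAt.eventually hg.eventually] with z k1 k2
    have k3 := fun i => mem_of_at (dv_nonneg (hv i)) (k1 i)
    have k4 := (at_sum Finset.univ fun i _ => (k1 i).nsmul (m i)).ev_div_ne (hu z _ k2)
    have k5 := LP.mem_of_ne k4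
    have k6 := mem_of_at (dv_nonneg h) k2
    have k7 := (hu z _ k2).ne
    refine ⟨contDiffAt_prod fun i _ => (fa_sm (k3 i)).pow _, fa_sm k5, by rwa [fa_j k5], ?_⟩
    simp only [fa_j (k3 _)]
    rw [ambM_j, fa_j k6, fa_j k5, u.ev_map k6,
      Finset.prod_congr rfl fun i _ => (LP.v_pow (k3 i) (m i)).symm,
      ← LP.v_prod _ fun i _ => pow_mem (k3 i) _, ev, ev,
      ← LP.v_mul _ k5 (prod_mem fun i _ => pow_mem (k3 i) _), div_mul_eq_mul_div,
      ← Finset.prod_mul_distrib]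
    rw [div_one, _root_.inv_inv] at k7
    rw [div_one, _root_.inv_inv g, Plc.π_inv k7, Finset.prod_eq_one fun i _ => by
      rw [← mul_pow, inv_mul_cancel₀ (inv_eq_zero.not.1 (k1 i).ne), one_pow], one_div]
  · rintro i _ ⟨y, rfl⟩
    rw [ambM_j, ambM_j, ambM_j, ambM_j, ← Mor.comp_map, ← Mor.comp_map, hc i]

end Crest.Agent.X262.PL
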