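import Crest.Agent.X262.PL.Ang
import Crest.Agent.R208.FH1

/-!
# Row 262, PL (helper92), part Flat: the Poincaré–Lelong formula on `ℂ × Q`

`flat_int`, `flat_pl`: for a compactly supported `C¹` form `ψ` on `ℂ × Q` and any linear functional
`T` on the exterior algebra, `∫ T (ang z ∧ dψ) = ∫_Q T (dx ∧ dy ∧ ψ (0, w))`.
`eP n`: the volume preserving identification `ℝ^(n+2) ≃ ℂ × ℝ^n`, `top_eP`.
-/

set_option autoImplicit false
set_option linter.unusedSectionVars false

open Set Filter Topology Module MeasureTheory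
open scoped ContDiff
open Crest.Agent.R208.F Crest.Agent.R208.FI

noncomputable section

namespace Crest.Agent.X262.PL

/-! ### the peak function -/

/-- the peak function `1 / (π (|z|² + 1)²)` -/
def pk (z : ℂ) : ℝ := 1 / (Real.pi * (‖z‖ ^ 2 + 1) ^ 2)

theorem pk_nonneg (z : ℂ) : 0 ≤ pk z := by unfold pk; positivity

theorem integral_pk : ∫ z : ℂ, pk z = 1 := by
  have h := integral_fun_norm_addHaar (volume : Measure ℂ)
    (fun r : ℝ => 1 / (Real.pi * (r ^ 2 + 1) ^ 2))
  have hpi := Real.pi_pos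
  have h1 : ∫ y in Ioi (0 : ℝ), y ^ (2 - 1) • (1 / (Real.pi * (y ^ 2 + 1) ^ 2))
      = 0 - (-(1 / (2 * Real.pi * ((0 : ℝ) ^ 2 + 1)))) := by
    refine integral_Ioi_of_hasDerivAt_of_nonneg'
      (g := fun y : ℝ => -(1 / (2 * Real.pi * (y ^ 2 + 1)))) (fun y _ => ?_) (fun y hy => ?_) ?_
    · have h2 : HasDerivAt (fun y : ℝ => 2 * Real.pi * (y ^ 2 + 1)) (2 * Real.pi * (2 * y)) y := by
        have := ((hasDerivAt_pow 2 y).add_const 1).const_mul (2 * Real.pi)
        simpa using this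
      have h3 : (2 * Real.pi * (y ^ 2 + 1)) ≠ 0 := by positivity
      have h4 := (h2.fun_inv h3).fun_neg
      simp only [one_div]
      refine h4.congr_deriv ?_
      have h5 : y ^ 2 + 1 ≠ 0 := by positivity
      simp only [smul_eq_mul]
      field_simp
      ring
    · have : 0 < y := hy
      simp only [smul_eq_mul]
      positivity
    · have h2 : Tendsto (fun y : ℝ => 2 * Real.pi * (y ^ 2 + 1)) atTop atTop :=
        Tendsto.const_mul_atTop (by positivity)
          (tendsto_atTop_add_const_right _ 1 (tendsto_pow_atTop two_ne_zero))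
      have h3 := h2.inv_tendsto_atTop.neg
      simp only [one_div, neg_zero] at h3 ⊢
      exact h3
  rw [Complex.finrank_real_complex, h1] at h
  have h2 : (volume : Measure ℂ).real (Metric.ball 0 1) = Real.pi := by
    rw [Measure.real, Complex.volume_ball]
    simp
  rw [h2] at h
  refine h.trans ?_
  simp only [smul_eq_mul, nsmul_eq_mul]
  field_simp
  norm_num

theorem tendsto_pk : Tendsto (fun z : ℂ => ‖z‖ ^ finrank ℝ ℂ * pk z) (Bornology.cobounded ℂ) (𝓝 0) := by
  rw [Complex.finrank_real_complex]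
  have hpi := Real.pi_pos
  have h1 : Tendsto (fun z : ℂ => (Real.pi * (‖z‖ ^ 2 + 1))⁻¹) (Bornology.cobounded ℂ) (𝓝 0) := by
    refine Tendsto.inv_tendsto_atTop (Tendsto.const_mul_atTop hpi
      (tendsto_atTop_add_const_right _ 1 ?_))
    exact (tendsto_pow_atTop two_ne_zero).comp tendsto_norm_cobounded_atTop
  refine squeeze_zero (fun z => mul_nonneg (by positivity) (pk_nonneg z)) (fun z => ?_) h1
  unfold pk
  have h2 : 0 < ‖z‖ ^ 2 + 1 := by positivity
  rw [mul_one_div, div_le_iff₀ (by positivity)]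
  field_simp
  nlinarith [sq_nonneg ‖z‖]

theorem pk_scale {c : ℝ} (hc : 0 < c) (z : ℂ) :
    c ^ finrank ℝ ℂ * pk (c • z)
      = (c ^ 2)⁻¹ / (Real.pi * (Complex.normSq z + (c ^ 2)⁻¹) ^ 2) := by
  rw [Complex.finrank_real_complex, pk, norm_smul, Real.norm_of_nonneg hc.le,
    Complex.normSq_eq_norm_sq]
  have hpi := Real.pi_pos
  field_simp

section flat
variable {Q : Type*} [NormedAddCommGroup Q] [NormedSpace ℝ Q] [FiniteDimensional ℝ Q]
  [MeasurableSpace Q] [BorelSpace Q] (ν : Measure Q) [ν.IsAddHaarMeasure]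

theorem locInt_inv : LocallyIntegrable (fun p : ℂ × Q => ‖p.1‖⁻¹) ((volume : Measure ℂ).prod ν) := by
  have h1 : LocallyIntegrable (fun z : ℂ => ‖z‖⁻¹) volume := by
    refine locallyIntegrable_of_norm_le_rpow (C := 1) (α := 1) (by simp) (by simp) ?_ ?_
    · refine Eventually.of_forall fun z => ?_
      rw [Real.rpow_neg_one, one_mul, norm_inv, norm_norm]
    · exact (measurable_norm.inv).aestronglyMeasurable
  rw [locallyIntegrable_iff]
  intro K hK
  have h2 : IntegrableOn (fun z : ℂ => ‖z‖⁻¹) (Prod.fst '' K) volume :=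
    h1.integrableOn_isCompact (hK.image continuous_fst)
  have h3 : IntegrableOn (fun _ : Q => (1 : ℝ)) (Prod.snd '' K) ν :=
    integrableOn_const (hK.image continuous_snd).measure_lt_top.ne
  have h4 := Integrable.mul_prod h2 h3
  rw [Measure.prod_restrict] at h4
  simp only [mul_one] at h4
  exact IntegrableOn.mono_set h4 fun p hp => ⟨⟨p, hp, rfl⟩, ⟨p, hp, rfl⟩⟩

/-- `dx`, `dy` pulled back to the product -/
def fx : Ext (ℂ × Q) := pb (LinearMap.fst ℝ ℂ Q) dx
/-- `dx`, `dy` pulled back to the product -/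
def fy : Ext (ℂ × Q) := pb (LinearMap.fst ℝ ℂ Q) dy

theorem pull_fst (om : ℂ → Ext ℂ) (p : ℂ × Q) :
    pull (Prod.fst : ℂ × Q → ℂ) om p = pb (LinearMap.fst ℝ ℂ Q) (om p.1) := by
  rw [pull, fderiv_fst]; rfl

theorem vol2_fst (p : ℂ × Q) : vol2 (Prod.fst : ℂ × Q → ℂ) p = fx * fy := by
  rw [vol2, pull_fst, map_mul]; rfl

theorem T_angE (T : Ext (ℂ × Q) →ₗ[ℝ] ℝ) (e : ℝ) (p : ℂ × Q) (c : Ext (ℂ × Q)) :
    T (pull (Prod.fst : ℂ × Q → ℂ) (angE e) p * c) =
      (2 * Real.pi)⁻¹ * (Complex.normSq p.1 + e)⁻¹ *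
        (p.1.re * T (fy * c) - p.1.im * T (fx * c)) := by
  rw [pull_fst, angE]
  simp only [map_smul, map_sub, smul_mul_assoc, sub_mul, smul_eq_mul]
  rfl

theorem abs_T_angE (T : Ext (ℂ × Q) →ₗ[ℝ] ℝ) {e : ℝ} (he : 0 ≤ e) (p : ℂ × Q) (c : Ext (ℂ × Q)) :
    ‖T (pull (Prod.fst : ℂ × Q → ℂ) (angE e) p * c)‖ ≤
      ‖p.1‖⁻¹ • ((2 * Real.pi)⁻¹ * (|T (fy * c)| + |T (fx * c)|)) := by
  rw [T_angE]
  have hpi := Real.pi_pos
  rcases eq_or_ne p.1 0 with h0 | h0
  · simp [h0]
  have hn : 0 < ‖p.1‖ := norm_pos_iff.2 h0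
  have h1 : |p.1.re * T (fy * c) - p.1.im * T (fx * c)|
      ≤ ‖p.1‖ * (|T (fy * c)| + |T (fx * c)|) := by
    refine (abs_sub _ _).trans ?_
    rw [abs_mul, abs_mul, mul_add]
    exact add_le_add (mul_le_mul_of_nonneg_right (Complex.abs_re_le_norm _) (abs_nonneg _))
      (mul_le_mul_of_nonneg_right (Complex.abs_im_le_norm _) (abs_nonneg _))
  have h2 : (Complex.normSq p.1 + e)⁻¹ ≤ (‖p.1‖ ^ 2)⁻¹ := by
    rw [Complex.normSq_eq_norm_sq]
    exact inv_anti₀ (by positivity) (by linarith)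
  have h3 : 0 ≤ (Complex.normSq p.1 + e)⁻¹ := by
    have := Complex.normSq_nonneg p.1
    positivity
  rw [Real.norm_eq_abs, abs_mul, abs_of_nonneg (by positivity), smul_eq_mul]
  calc _ ≤ (2 * Real.pi)⁻¹ * (‖p.1‖ ^ 2)⁻¹ * (‖p.1‖ * (|T (fy * c)| + |T (fx * c)|)) := by gcongr
    _ = _ := by field_simp

theorem continuous_T_mul (T : Ext (ℂ × Q) →ₗ[ℝ] ℝ) (a : Ext (ℂ × Q)) {η : ℂ × Q → Ext (ℂ × Q)}
    (hη : Continuous η) : Continuous fun p => T (a * η p) :=
  (LinearMap.toContinuousLinearMap (T ∘ₗ LinearMap.mul ℝ _ a)).continuous.comp hη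

theorem compact_T_mul (T : Ext (ℂ × Q) →ₗ[ℝ] ℝ) (a : Ext (ℂ × Q)) {η : ℂ × Q → Ext (ℂ × Q)}
    (hc : HasCompactSupport η) : HasCompactSupport fun p => T (a * η p) :=
  hc.comp_left (g := fun c => T (a * c)) (by simp)

theorem integrable_bound (T : Ext (ℂ × Q) →ₗ[ℝ] ℝ) {η : ℂ × Q → Ext (ℂ × Q)}
    (hη : Continuous η) (hc : HasCompactSupport η) :
    Integrable (fun p : ℂ × Q => ‖p.1‖⁻¹ • ((2 * Real.pi)⁻¹ * (|T (fy * η p)| + |T (fx * η p)|)))
      ((volume : Measure ℂ).prod ν) := by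
  refine (locInt_inv ν).integrable_smul_right_of_hasCompactSupport ?_ ?_
  · exact continuous_const.mul
      ((continuous_T_mul T _ hη).abs.add (continuous_T_mul T _ hη).abs)
  · exact hc.comp_left (g := fun c => (2 * Real.pi)⁻¹ * (|T (fy * c)| + |T (fx * c)|)) (by simp)

theorem measurable_T_angE (T : Ext (ℂ × Q) →ₗ[ℝ] ℝ) (e : ℝ) {η : ℂ × Q → Ext (ℂ × Q)}
    (hη : Continuous η) :
    Measurable fun p : ℂ × Q => T (pull (Prod.fst : ℂ × Q → ℂ) (angE e) p * η p) := by
  simp only [T_angE]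
  refine (measurable_const.mul ?_).mul ?_
  · exact ((Complex.continuous_normSq.comp continuous_fst).add continuous_const).measurable.inv
  · exact (((Complex.continuous_re.comp continuous_fst).mul (continuous_T_mul T _ hη)).sub
      ((Complex.continuous_im.comp continuous_fst).mul (continuous_T_mul T _ hη))).measurable

/-- the singular form is integrable against continuous compactly supported forms -/
theorem flat_int (T : Ext (ℂ × Q) →ₗ[ℝ] ℝ) {η : ℂ × Q → Ext (ℂ × Q)}
    (hη : Continuous η) (hc : HasCompactSupport η) :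
    Integrable (fun p : ℂ × Q => T (ang (Prod.fst : ℂ × Q → ℂ) p * η p))
      ((volume : Measure ℂ).prod ν) :=
  (integrable_bound ν T hη hc).mono' (measurable_T_angE T 0 hη).aestronglyMeasurable
    (Eventually.of_forall fun p => abs_T_angE T le_rfl p _)

theorem flat_stokes (T : Ext (ℂ × Q) →ₗ[ℝ] ℝ) {ψ : ℂ × Q → Ext (ℂ × Q)}
    (hψ : ContDiff ℝ 1 ψ) (hc : HasCompactSupport ψ) {e : ℝ} (he : 0 < e) :
    ∫ p : ℂ × Q, T (pull (Prod.fst : ℂ × Q → ℂ) (angE e) p * d ψ p) ∂((volume : Measure ℂ).prod ν)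
      = ∫ p : ℂ × Q, (e / (Real.pi * (Complex.normSq p.1 + e) ^ 2)) * T (fx * fy * ψ p)
          ∂((volume : Measure ℂ).prod ν) := by
  have hne : ∀ z : ℂ, Complex.normSq z + e ≠ 0 := fun z => by
    have := Complex.normSq_nonneg z
    positivity
  have hA : ∀ p : ℂ × Q, ContDiffAt ℝ 1 (pull (Prod.fst : ℂ × Q → ℂ) (angE e)) p := fun p =>
    contDiffAt_pull (n := 2) contDiffAt_fst (by norm_num) (contDiffAt_angE (hne _))
  have hβ : ContDiff ℝ 1 fun p => pull (Prod.fst : ℂ × Q → ℂ) (angE e) p * ψ p :=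
    contDiff_mul (contDiff_iff_contDiffAt.2 hA) hψ
  have hβc : HasCompactSupport fun p => pull (Prod.fst : ℂ × Q → ℂ) (angE e) p * ψ p :=
    hc.mul_left
  have hS := integral_functional_d_eq_zero ((volume : Measure ℂ).prod ν) hβ hβc T
  have hd : ∀ p : ℂ × Q, T (d (fun p => pull (Prod.fst : ℂ × Q → ℂ) (angE e) p * ψ p) p)
      = (e / (Real.pi * (Complex.normSq p.1 + e) ^ 2)) * T (fx * fy * ψ p)
        - T (pull (Prod.fst : ℂ × Q → ℂ) (angE e) p * d ψ p) := by
    intro p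
    rw [d_mul ((hA p).differentiableAt (by simp)) (hψ.differentiable (by simp) p),
      d_pull contDiffAt_fst ((contDiffAt_angE (n := 1) (hne _)).differentiableAt (by simp)),
      pull_fst, pull_fst, d_angE (hne _), ← pb_inv, inv_angE]
    simp only [map_smul, map_neg, map_mul, smul_mul_assoc, neg_mul, map_add, smul_eq_mul]
    rfl
  simp only [hd] at hS
  have hdc : Continuous (d ψ) := (wd _).continuous.comp (hψ.continuous_fderiv one_ne_zero)
  rw [integral_sub] at hS
  · exact (sub_eq_zero.1 hS).symm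
  · refine Continuous.integrable_of_hasCompactSupport ?_ (compact_T_mul T _ hc).mul_left
    refine Continuous.mul (continuous_const.div ?_ fun p => ?_) (continuous_T_mul T _ hψ.continuous)
    · exact continuous_const.mul
        (((Complex.continuous_normSq.comp continuous_fst).add continuous_const).pow 2)
    · exact mul_ne_zero Real.pi_ne_zero (pow_ne_zero _ (hne _))
  · exact (integrable_bound ν T hdc (hasCompactSupport_d hc)).mono'
      (measurable_T_angE T e hdc).aestronglyMeasurable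
      (Eventually.of_forall fun p => abs_T_angE T he.le p _)

theorem tendsto_peak {g : ℂ × Q → ℝ} (hg : Continuous g) (hc : HasCompactSupport g) :
    Tendsto (fun c : ℝ => ∫ p : ℂ × Q, (c ^ finrank ℝ ℂ * pk (c • p.1)) * g p
      ∂((volume : Measure ℂ).prod ν)) atTop (𝓝 (∫ w, g (0, w) ∂ν)) := by
  have hi : Integrable g ((volume : Measure ℂ).prod ν) := hg.integrable_of_hasCompactSupport hc
  have hG : Continuous fun z : ℂ => ∫ w, g (z, w) ∂ν := by
    rw [← continuousOn_univ]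
    refine continuousOn_integral_of_compact_support (k := Prod.snd '' tsupport g)
      (hc.isCompact.image continuous_snd) hg.continuousOn fun z w _ hw => ?_
    by_contra h
    exact hw ⟨(z, w), subset_tsupport g h, rfl⟩
  have h1 := tendsto_integral_comp_smul_smul_of_integrable (μ := (volume : Measure ℂ)) pk_nonneg
    integral_pk tendsto_pk hi.integral_prod_left hG.continuousAt
  refine h1.congr fun c => ?_
  have hpk : Continuous fun z : ℂ => c ^ finrank ℝ ℂ * pk (c • z) := by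
    refine continuous_const.mul (continuous_const.div (by fun_prop) fun z => ?_)
    have := Real.pi_pos
    positivity
  rw [integral_prod]
  · simp only [integral_const_mul, smul_eq_mul]
  · exact ((hpk.comp continuous_fst).mul hg).integrable_of_hasCompactSupport hc.mul_left

/-- **flat Poincaré–Lelong formula** -/
theorem flat_pl (T : Ext (ℂ × Q) →ₗ[ℝ] ℝ) {ψ : ℂ × Q → Ext (ℂ × Q)}
    (hψ : ContDiff ℝ 1 ψ) (hc : HasCompactSupport ψ) :
    ∫ p : ℂ × Q, T (ang (Prod.fst : ℂ × Q → ℂ) p * d ψ p) ∂((volume : Measure ℂ).prod ν)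
      = ∫ w, T (fx * fy * ψ (0, w)) ∂ν := by
  have hdc : Continuous (d ψ) := (wd _).continuous.comp (hψ.continuous_fderiv one_ne_zero)
  have h1 := tendsto_peak ν (continuous_T_mul T (fx * fy) hψ.continuous) (compact_T_mul T _ hc)
  have h2 : Tendsto (fun c : ℝ => ∫ p : ℂ × Q,
      T (pull (Prod.fst : ℂ × Q → ℂ) (angE (c ^ 2)⁻¹) p * d ψ p) ∂((volume : Measure ℂ).prod ν))
      atTop (𝓝 (∫ p : ℂ × Q, T (ang (Prod.fst : ℂ × Q → ℂ) p * d ψ p)
        ∂((volume : Measure ℂ).prod ν))) := by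
    refine tendsto_integral_filter_of_dominated_convergence _
      (Eventually.of_forall fun c => (measurable_T_angE T _ hdc).aestronglyMeasurable)
      (Eventually.of_forall fun c => Eventually.of_forall fun p =>
        abs_T_angE T (by positivity) p _)
      (integrable_bound ν T hdc (hasCompactSupport_d hc)) (Eventually.of_forall fun p => ?_)
    simp only [ang, T_angE]
    rcases eq_or_ne p.1 0 with h0 | h0
    · simp [h0]
    have h3 : Tendsto (fun c : ℝ => (c ^ 2)⁻¹) atTop (𝓝 0) :=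
      (tendsto_pow_atTop two_ne_zero).inv_tendsto_atTop
    exact (((h3.const_add _).inv₀ (normSq_ne h0)).const_mul _).mul_const _
  refine tendsto_nhds_unique h2 (h1.congr' ?_)
  filter_upwards [eventually_gt_atTop 0] with c hc0
  rw [flat_stokes ν T hψ hc (by positivity)]
  simp only [pk_scale hc0]

end flat

/-! ### the identification `ℝ^(n+2) ≃ ℂ × ℝ^n` -/

/-- index bijection -/
def iP (n : ℕ) : Fin 2 ⊕ Fin n ≃ Fin (n + 2) := finSumFinEquiv.trans (finCongr (add_comm 2 n))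

/-- the basis `1, i, e₁, …, eₙ` -/
def bP (n : ℕ) : Basis (Fin (n + 2)) ℝ (ℂ × Eu n) := (Complex.basisOneI.prod (sb n)).reindex (iP n)

/-- the identification `ℝ^(n+2) ≃ ℂ × ℝ^n` -/
def eP (n : ℕ) : Eu (n + 2) ≃L[ℝ] ℂ × Eu n :=
  ((sb (n + 2)).equiv (bP n) (Equiv.refl _)).toContinuousLinearEquiv

theorem eP_sb (n : ℕ) (i : Fin (n + 2)) : eP n (sb (n + 2) i) = bP n i :=
  Basis.equiv_apply (sb (n + 2)) i (bP n) (Equiv.refl _)

theorem bP_eq (n : ℕ) : (bP n : Fin (n + 2) → ℂ × Eu n) =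
    Matrix.vecCons (1, 0) (Matrix.vecCons (Complex.I, 0) fun j => (0, sb n j)) := by
  funext i
  rw [bP, Basis.reindex_apply]
  refine Fin.cases ?_ (fun i => Fin.cases ?_ (fun j => ?_) i) i
  · have : (iP n).symm 0 = Sum.inl 0 := by
      rw [Equiv.symm_apply_eq]; ext; simp [iP]
    rw [this]; ext <;> simp
  · have : (iP n).symm (Fin.succ 0) = Sum.inl 1 := by
      rw [Equiv.symm_apply_eq]; ext; simp [iP]
    rw [this]; ext <;> simp
  · have : (iP n).symm (Fin.succ (Fin.succ j)) = Sum.inr j := by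
      rw [Equiv.symm_apply_eq]; ext; simp [iP]
    rw [this]; ext <;> simp

theorem measurePreserving_eP (n : ℕ) :
    MeasurePreserving (eP n) volume ((volume : Measure ℂ).prod (volume : Measure (Eu n))) := by
  refine ⟨(eP n).continuous.measurable, ?_⟩
  have h1 : (volume : Measure (Eu (n + 2))) = (sb (n + 2)).addHaar :=
    (EuclideanSpace.basisFun (Fin (n + 2)) ℝ).addHaar_eq_volume.symm
  have h2 : (volume : Measure (Eu n)) = (sb n).addHaar :=
    (EuclideanSpace.basisFun (Fin n) ℝ).addHaar_eq_volume.symm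
  have h3 : (volume : Measure ℂ) = Complex.basisOneI.addHaar :=
    Complex.orthonormalBasisOneI.addHaar_eq_volume.symm
  have h4 : (sb (n + 2)).map (eP n).toLinearEquiv = bP n := by
    ext1 i
    exact eP_sb n i
  rw [h1, h2, h3, Basis.map_addHaar, h4, bP, Basis.addHaar_reindex, Basis.prod_addHaar]

theorem top_eP (n : ℕ) (c : Ext (ℂ × Eu n)) :
    top (n + 2) (pb ((eP n : Eu (n + 2) →L[ℝ] ℂ × Eu n) : Eu (n + 2) →ₗ[ℝ] ℂ × Eu n) (fx * fy * c))
      = top n (pb (LinearMap.inr ℝ ℂ (Eu n)) c) := by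
  rw [top_pb]
  have h1 : (fun i => ((eP n : Eu (n + 2) →L[ℝ] ℂ × Eu n) : Eu (n + 2) →ₗ[ℝ] ℂ × Eu n)
      (sb (n + 2) i)) = bP n := funext (eP_sb n)
  rw [h1, bP_eq, evA_ii, evA_ii]
  change evA _ n _ (fun j => LinearMap.inr ℝ ℂ (Eu n) (sb n j)) = _
  rw [← top_pb]
  congr 1
  have hx : Complex.reLm ∘ₗ LinearMap.fst ℝ ℂ (Eu n) ∘ₗ LinearMap.inr ℝ ℂ (Eu n) = 0 := by
    ext; simp
  have hy : Complex.imLm ∘ₗ LinearMap.fst ℝ ℂ (Eu n) ∘ₗ LinearMap.inr ℝ ℂ (Eu n) = 0 := by
    ext; simp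
  simp only [fx, fy, dx, dy, pb_io, mul_assoc, ii_io_mul, map_sub, map_smul, map_mul,
    LinearMap.comp_assoc, hx, hy, map_zero, zero_mul, sub_zero]
  simp

end Crest.Agent.X262.PL
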