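import Crest.Agent.X262.PL.Chart
import Crest.Agent.X262.Man.Lin

/-!
# Row 262, PL (helper92), part Hol: holomorphic equations are positive

* `PosO ε o` : the orientation `o` is positive in the holomorphic charts;
* `dv_of_hol` : an injective holomorphic immersion is a `Dv`;
* `lEq_of_hol` : a holomorphic local equation with nonzero differential is an `LEq`.
-/

set_option autoImplicit false
set_option linter.unusedSectionVars false

open Set Filter Topology Module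
open scoped ContDiff
open Crest.Agent.R208.F Crest.Agent.R208.FI Crest.Agent.R208.CW
open Crest.Agent.R275.Geo (Cn RI rc Atl)
open Crest.Agent.R273.Map_835 (HolMap rd dm mem_dm)
open Crest.Agent.X262.Man

noncomputable section

namespace Crest.Agent.X262.PL

/-! ### linear algebra -/

/-- forget the first coordinate -/
def tl (m : ℕ) : Cn (m + 1) →ₗ[ℂ] Cn m where
  toFun u := WithLp.toLp 2 fun b => u b.succ
  map_add' _ _ := rfl
  map_smul' _ _ := rfl

theorem cL_sb {n : ℕ} (k : Fin (2 * n)) (a : Fin n) : cL n (sb (2 * n) k) a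
    = (if (k : ℕ) = 2 * a then 1 else 0) + (if (k : ℕ) = 2 * a + 1 then Complex.I else 0) := by
  have h : ∀ l : Fin (2 * n), sb (2 * n) k l = if (k : ℕ) = l then 1 else 0 := fun l => by
    simp [sb, Fin.ext_iff, eq_comm]
  rw [cL_apply, h, h, ix_val, ix_val]
  simp only [Fin.val_zero, Fin.val_one, zero_add, add_comm 1]
  split_ifs <;> simp

theorem eq_zero_of_tl {m : ℕ} {u : Cn (m + 1)} (h0 : u 0 = 0) (h : tl m u = 0) : u = 0 := by
  ext b
  refine Fin.cases h0 (fun b => ?_) b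
  exact congrArg (fun v : Cn m => v b) h

/-- the complex linear map `e₀ ↦ a`, `e_{b+1} ↦ J e_b` -/
def blk {m : ℕ} (a : Cn (m + 1)) (J : Cn m →ₗ[ℂ] Cn (m + 1)) : Cn (m + 1) →ₗ[ℂ] Cn (m + 1) :=
  ((EuclideanSpace.proj (0 : Fin (m + 1)) : Cn (m + 1) →L[ℂ] ℂ) : Cn (m + 1) →ₗ[ℂ] ℂ).smulRight a
    + J ∘ₗ tl m

theorem blk_apply {m : ℕ} (a : Cn (m + 1)) (J : Cn m →ₗ[ℂ] Cn (m + 1)) (u : Cn (m + 1)) :
    blk a J u = u 0 • a + J (tl m u) := rfl

theorem blk_sb {m : ℕ} (a : Cn (m + 1)) (J : Cn m →ₗ[ℂ] Cn (m + 1)) :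
    (fun k : Fin (2 * m + 2) => blk a J (cL (m + 1) (sb (2 * (m + 1)) k)))
      = Matrix.vecCons a (Matrix.vecCons (Complex.I • a) fun j => J (cL m (sb (2 * m) j))) := by
  funext k
  rw [blk_apply]
  refine Fin.cases ?_ (fun k => Fin.cases ?_ (fun j => ?_) k) k
  · have h : tl m (cL (m + 1) (sb (2 * (m + 1)) (0 : Fin (2 * m + 2)))) = 0 := by
      ext b
      refine (cL_sb (n := m + 1) _ b.succ).trans ?_
      simp
    rw [h, cL_sb (n := m + 1)]
    simp
  · have h : tl m (cL (m + 1) (sb (2 * (m + 1)) (Fin.succ (0 : Fin (2 * m + 1))))) = 0 := by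
      ext b
      refine (cL_sb (n := m + 1) _ b.succ).trans ?_
      rw [if_neg (by rw [Fin.val_succ, Fin.val_succ, Fin.val_zero]; omega),
        if_neg (by rw [Fin.val_succ, Fin.val_succ, Fin.val_zero]; omega)]
      simp
    rw [h, cL_sb (n := m + 1), if_neg (by rw [Fin.val_succ, Fin.val_zero, Fin.val_zero]; omega),
      if_pos (by rw [Fin.val_succ, Fin.val_zero, Fin.val_zero])]
    simp
  · have h : tl m (cL (m + 1) (sb (2 * (m + 1)) (Fin.succ (Fin.succ j) : Fin (2 * m + 2))))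
        = cL m (sb (2 * m) j) := by
      ext b
      refine (cL_sb (n := m + 1) _ b.succ).trans ?_
      rw [cL_sb]
      simp only [Fin.val_succ]
      congr 1
      · exact if_congr (by omega) rfl rfl
      · exact if_congr (by omega) rfl rfl
    rw [h, cL_sb (n := m + 1)]
    simp

theorem evA_blk {m : ℕ} {a : Cn (m + 1)} {J : Cn m →ₗ[ℂ] Cn (m + 1)} {l : Cn (m + 1) →ₗ[ℂ] ℂ}
    (hJ : Function.Injective J) (hl : ∀ w, l (J w) = 0) (ha : l a = 1) {c : Ext (Cn (m + 1))}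
    (hc : 0 < topC (m + 1) c) : 0 < evA _ (2 * m + 2) c
      (Matrix.vecCons a (Matrix.vecCons (Complex.I • a) fun j => J (cL m (sb (2 * m) j)))) := by
  have h1 : LinearMap.det (blk a J) ≠ 0 := by
    rw [← isUnit_iff_ne_zero, ← LinearMap.isUnit_iff_isUnit_det, LinearMap.isUnit_iff_ker_eq_bot,
      LinearMap.ker_eq_bot']
    intro u hu
    have h2 := congrArg l hu
    rw [blk_apply, map_add, map_smul, ha, hl, add_zero, map_zero, smul_eq_mul, mul_one] at h2
    rw [blk_apply, h2, zero_smul, zero_add] at hu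
    exact eq_zero_of_tl h2 (hJ (hu.trans (map_zero J).symm))
  have h2 := topC_pb_hol (blk a J) c
  rw [topC_apply, pb_comp, top_pb] at h2
  rw [← blk_sb]
  exact (mul_pos (Complex.normSq_pos.2 h1) hc).trans_eq h2.symm

/-! ### embedded manifolds -/

variable {n m : ℕ} {M N : Type} [TopologicalSpace M] [TopologicalSpace N] [CompactSpace M]
  [CompactSpace N] {E E' : Type} [NormedAddCommGroup E] [NormedSpace ℝ E] [FiniteDimensional ℝ E]
  [NormedAddCommGroup E'] [NormedSpace ℝ E'] [FiniteDimensional ℝ E']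

/-- the orientation is positive in the holomorphic charts -/
def PosO {A : Atl n M} (ε : Emb A E) (o : E → Ext E) : Prop :=
  ∀ i, ∀ z ∈ (A.e i).target, 0 < topC n (pull (ε.par i) o z)

theorem eventually_X {A : Atl n M} (ε : Emb A E) {x : M} {p : E → Prop} :
    (∀ᶠ q in 𝓝[ε.X] (ε.j x), p q) ↔ ∀ᶠ y in 𝓝 x, p (ε.j y) := by
  rw [Emb.X, ← ε.isClosedEmbedding.isEmbedding.map_nhds_eq, eventually_map]

variable {A : Atl n M} {B : Atl m N} (ε : Emb A E) (ε' : Emb B E') {p : N → M} {g : E' → E}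

theorem fderiv_amb (hp : HolMap B A p) (hg : ∀ y, g (ε'.j y) = ε.j (p y)) {y : N}
    (hd : DifferentiableAt ℝ g (ε'.j y)) {k : B.ι} {i : A.ι} (hk : y ∈ (B.e k).source)
    (hi : p y ∈ (A.e i).source) (w : Cn m) :
    fderiv ℝ g (ε'.j y) (fderiv ℝ (ε'.par k) (B.e k y) w)
      = fderiv ℝ (ε.par i) (A.e i (p y)) (fderiv ℂ (rd B A p k i) (B.e k y) w) := by
  have h0 := mem_dm (p := p) hk hi
  have h1 : HasFDerivAt g (fderiv ℝ g (ε'.j y)) (ε'.par k (B.e k y)) := by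
    rw [ε'.par_e hk]; exact hd.hasFDerivAt
  have h2 := h1.comp _ (ε'.diff_par h0.1).hasFDerivAt
  have h3 : rd B A p k i (B.e k y) = A.e i (p y) := by rw [rd, (B.e k).left_inv hk]
  have h4 : HasFDerivAt (ε.par i) (fderiv ℝ (ε.par i) (A.e i (p y))) (rd B A p k i (B.e k y)) := by
    rw [h3]; exact (ε.diff_par ((A.e i).map_source hi)).hasFDerivAt
  have h5 := (h4.comp _ ((hp.diffAt h0).hasFDerivAt.restrictScalars ℝ)).congr_of_eventuallyEq
    (ε'.comp_par ε hp hg h0)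
  exact congrArg (fun L => L w) (h2.unique h5)

theorem dv_of_hol (hp : HolMap B A p) (hg : ∀ y, g (ε'.j y) = ε.j (p y))
    (hs : ∀ y, ContDiffAt ℝ ∞ g (ε'.j y)) {oY : E' → Ext E'} (ho : Ori (2 * m) ε'.X oY)
    (hinj : Function.Injective p)
    (himm : ∀ y k i, y ∈ (B.e k).source → p y ∈ (A.e i).source →
      Function.Injective (fderiv ℂ (rd B A p k i) (B.e k y))) :
    Dv (2 * m) ε.X ε'.X oY g := by
  refine ⟨ε'.clo, ho, ⟨ε'.forall_X.2 hs, ?_⟩, ?_, ε'.forall_X.2 fun y v hv h0 => ?_⟩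
  · rintro _ ⟨y, rfl⟩
    rw [hg]; exact ε.mem _
  · rintro _ ⟨y, rfl⟩ _ ⟨y', rfl⟩ h
    rw [hg, hg] at h
    rw [hinj (ε.inj h)]
  · obtain ⟨k, hk⟩ := B.cover y
    obtain ⟨i, hi⟩ := A.cover (p y)
    rw [← ε'.par_e hk, ε'.tan_eq ((B.e k).map_source hk)] at hv
    obtain ⟨w, rfl⟩ := hv
    have h1 := fderiv_amb ε ε' hp hg ((hs y).differentiableAt (by simp)) hk hi w
    have h2 : fderiv ℂ (rd B A p k i) (B.e k y) w = 0 :=
      ε.imm i _ ((A.e i).map_source hi) ((h1.symm.trans h0).trans (map_zero _).symm)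
    rw [himm y k i hk hi (h2.trans (map_zero _).symm), map_zero]

theorem image_amb (hg : ∀ y, g (ε'.j y) = ε.j (p y)) {x : M} :
    ε.j x ∈ g '' ε'.X ↔ x ∈ range p := by
  constructor
  · rintro ⟨_, ⟨y, rfl⟩, h⟩
    exact ⟨y, ε.inj ((hg y).symm.trans h)⟩
  · rintro ⟨y, rfl⟩
    exact ⟨_, ε'.mem y, hg y⟩

/-- a holomorphic local equation is positive -/
theorem lEq_of_hol {A : Atl (m + 1) M} (ε : Emb A E) (hp : HolMap B A p)
    (hg : ∀ y, g (ε'.j y) = ε.j (p y)) (hs : ∀ y, DifferentiableAt ℝ g (ε'.j y))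
    {o : E → Ext E} {oY : E' → Ext E'} (ho : PosO ε o) (hoY : PosO ε' oY)
    (himm : ∀ y k i, y ∈ (B.e k).source → p y ∈ (A.e i).source →
      Function.Injective (fderiv ℂ (rd B A p k i) (B.e k y)))
    {z : E → ℂ} {x : M}
    (hz : ∀ᶠ y in 𝓝 x, ContDiffAt ℝ ∞ z (ε.j y) ∧ (z (ε.j y) = 0 ↔ y ∈ range p))
    (hd : x ∈ range p → ∃ i, x ∈ (A.e i).source ∧
      DifferentiableAt ℂ (fun w => z (ε.par i w)) (A.e i x) ∧
      fderiv ℂ (fun w => z (ε.par i w)) (A.e i x) ≠ 0) :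
    LEq (2 * m) ε.X o ε'.X oY g z (ε.j x) := by
  refine ⟨(eventually_X ε).2 (hz.mono fun y hy => ⟨hy.1, hy.2.trans (image_amb ε ε' hg).symm⟩), ?_⟩
  rintro _ ⟨y, rfl⟩ hy
  obtain rfl : p y = x := ε.inj ((hg y).symm.trans hy)
  obtain ⟨i, hi, h1, h2⟩ := hd ⟨y, rfl⟩
  obtain ⟨k, hk⟩ := B.cover y
  have hi' := (A.e i).map_source hi
  have hk' := (B.e k).map_source hk
  set l := fderiv ℂ (fun w => z (ε.par i w)) (A.e i (p y)) with hl
  set J := fderiv ℂ (rd B A p k i) (B.e k y) with hJ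
  have h0 := mem_dm (p := p) hk hi
  have h3 : rd B A p k i (B.e k y) = A.e i (p y) := by rw [rd, (B.e k).left_inv hk]
  have hzl : ∀ u, fderiv ℝ z (ε.j (p y)) (fderiv ℝ (ε.par i) (A.e i (p y)) u) = l u := fun u => by
    have a1 : HasFDerivAt z (fderiv ℝ z (ε.j (p y))) (ε.par i (A.e i (p y))) := by
      rw [ε.par_e hi]
      exact (hz.self_of_nhds.1.differentiableAt (by simp)).hasFDerivAt
    exact congrArg (fun L => L u) ((a1.comp _ (ε.diff_par hi').hasFDerivAt).unique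
      (h1.hasFDerivAt.restrictScalars ℝ))
  have hlJ : ∀ w, l (J w) = 0 := fun w => by
    have a1 : HasFDerivAt (fun w => z (ε.par i w)) l (rd B A p k i (B.e k y)) := by
      rw [h3]; exact h1.hasFDerivAt
    have a2 := a1.comp _ (hp.diffAt h0).hasFDerivAt
    have a3 : HasFDerivAt ((fun w => z (ε.par i w)) ∘ rd B A p k i) (0 : Cn m →L[ℂ] ℂ)
        (B.e k y) := by
      refine (hasFDerivAt_const (0 : ℂ) _).congr_of_eventuallyEq ?_
      have a4 : Tendsto (fun w => p ((B.e k).symm w)) (𝓝 (B.e k y)) (𝓝 (p y)) :=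
        hp.cont.continuousAt.tendsto.comp ((B.e k).tendsto_symm hk)
      filter_upwards [a4.eventually hz, (hp.isOpen_dm k i).mem_nhds h0] with w hw hw'
      rw [Function.comp_apply, Emb.par, rd, (A.e i).left_inv hw'.2]
      exact hw.2.2 ⟨_, rfl⟩
    exact congrArg (fun L => L w) (a2.unique a3)
  obtain ⟨a, ha⟩ : ∃ a, l a = 1 := by
    obtain ⟨b, hb⟩ : ∃ b, l b ≠ 0 := by
      by_contra h
      push Not at h
      exact h2 (ContinuousLinearMap.ext h)
    exact ⟨(l b)⁻¹ • b, by rw [map_smul, smul_eq_mul, inv_mul_cancel₀ hb]⟩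
  have hT : ∀ u, fderiv ℝ (ε.par i) (A.e i (p y)) u ∈ Tan ε.X (ε.j (p y)) := fun u => by
    rw [← ε.par_e hi, ε.tan_eq hi']; exact ⟨u, rfl⟩
  refine ⟨_, _, fun j => fderiv ℝ (ε'.par k) (B.e k y) (cL m (sb (2 * m) j)), hT a,
    hT (Complex.I • a), fun j => ?_, by rw [hzl, ha], by rw [hzl, map_smul, ha, smul_eq_mul, mul_one],
    mul_pos ?_ ?_⟩
  · rw [← ε'.par_e hk, ε'.tan_eq hk']; exact ⟨_, rfl⟩
  · have a1 := evA_blk (J := (J : Cn m →ₗ[ℂ] Cn (m + 1))) (l := (l : Cn (m + 1) →ₗ[ℂ] ℂ))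
      (himm y k i hk hi) hlJ ha (ho i _ hi')
    rw [pull, evA_pb, ε.par_e hi] at a1
    refine a1.trans_eq (congrArg _ (funext fun r => ?_))
    refine Fin.cases rfl (fun r => Fin.cases rfl (fun j => ?_) r) r
    exact (fderiv_amb ε ε' hp hg (hs y) hk hi _).symm
  · have a1 := hoY k _ hk'
    rw [topC_apply, pull, pb_comp, top_pb, ε'.par_e hk] at a1
    exact a1

end Crest.Agent.X262.PL
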