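import Crest.Agent.X262.PL.Gys
import Crest.Agent.X262.PL.Hol
import Crest.Agent.X262.Man.PM

/-!
# Row 262, PL (helper92), part Fs: the connection form of the tautological line

* `cn Z`   : `Im (∑ conj Zₖ dZₖ) / (2 π |Z|²)` for `Z : V → ℂ^{N+1}`; `cn_smul`, `d_cn`;
* `fs N`   : the Fubini-Study form `Im tr (Q dQ dQ) / 2 π` on the ambient space `Hm N`; `pull_fs`;
* `glue`   : gluing of ambient functions along an embedded manifold; `res_d_congr`.
-/

set_option autoImplicit false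
set_option linter.unusedSectionVars false

open Set Filter Topology Module
open scoped ContDiff ComplexConjugate
open Crest.Agent.R208.F Crest.Agent.R208.FI Crest.Agent.R208.CW Crest.Agent.R208.T
open Crest.Agent.R275.Geo (Cn Atl)
open Crest.Agent.R257.PN_835 (HC nsq pm pm_apply nsq_pos nsq_smul)
open Crest.Agent.X262.Man

noncomputable section

namespace Crest.Agent.X262.PL

variable {V : Type} [NormedAddCommGroup V] [NormedSpace ℝ V] [FiniteDimensional ℝ V] {N : ℕ}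

/-- the coordinates -/
def pj (k : Fin (N + 1)) : HC N →L[ℝ] ℂ := ContinuousLinearMap.proj k

@[simp] theorem pj_apply (k : Fin (N + 1)) (v : HC N) : pj k v = v k := rfl

/-- `∑ conj Zₖ dZₖ` -/
def lam (Z : HC N) : HC N →L[ℝ] ℂ := ∑ k, conj (Z k) • pj k

theorem lam_apply (Z v : HC N) : lam Z v = ∑ k, conj (Z k) * v k := by simp [lam]

/-- `∑ xₖ dyₖ - yₖ dxₖ` -/
def eta (Z : HC N) : Ext (HC N) :=
  ∑ k, ((Z k).re • io (imD (pj k)) - (Z k).im • io (reD (pj k)))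

theorem eta_eq (Z : HC N) : eta Z = io (imD (lam Z)) := by
  simp only [eta, ← map_smul, ← map_sub, ← map_sum]
  congr 1
  refine LinearMap.ext fun v => ?_
  simp [lam_apply, Complex.im_sum, sub_eq_add_neg]

theorem contDiff_re (k : Fin (N + 1)) : ContDiff ℝ ∞ fun Z : HC N => (Z k).re :=
  (Complex.reCLM.comp (pj k)).contDiff

theorem contDiff_im (k : Fin (N + 1)) : ContDiff ℝ ∞ fun Z : HC N => (Z k).im :=
  (Complex.imCLM.comp (pj k)).contDiff

theorem contDiff_eta : ContDiff ℝ ∞ (eta (N := N)) :=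
  ContDiff.sum fun k _ => ((contDiff_re k).smul_const _).sub ((contDiff_im k).smul_const _)

theorem d_eta (Z : HC N) : d eta Z = (2 : ℝ) • herm (pj (N := N)) := by
  have h1 := fun k : Fin (N + 1) => (contDiff_re k).differentiable (by simp) Z
  have h2 := fun k : Fin (N + 1) => (contDiff_im k).differentiable (by simp) Z
  unfold eta
  rw [d_sum _ fun k _ => ((h1 k).smul_const _).fun_sub ((h2 k).smul_const _), herm,
    Finset.smul_sum]
  refine Finset.sum_congr rfl fun k _ => ?_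
  have e1 : fderiv ℝ (fun Z : HC N => (Z k).re) Z = Complex.reCLM.comp (pj k) :=
    (Complex.reCLM.comp (pj k)).fderiv
  have e2 : fderiv ℝ (fun Z : HC N => (Z k).im) Z = Complex.imCLM.comp (pj k) :=
    (Complex.imCLM.comp (pj k)).fderiv
  rw [d_sub ((h1 k).smul_const _) ((h2 k).smul_const _), d_smul (h1 k) (differentiableAt_const _),
    d_smul (h2 k) (differentiableAt_const _), d_const, d_const, smul_zero, smul_zero, add_zero,
    add_zero, e1, e2]
  change io (reD (pj k)) * io (imD (pj k)) - io (imD (pj k)) * io (reD (pj k)) = _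
  rw [io_anti (imD (pj k)), two_smul, sub_neg_eq_add]
  rfl

theorem hasFDerivAt_nsq (Z : HC N) :
    HasFDerivAt (nsq : HC N → ℝ) ((2 : ℝ) • Complex.reCLM.comp (lam Z)) Z := by
  have h := HasFDerivAt.fun_sum (u := Finset.univ) fun (k : Fin (N + 1)) _ =>
    (hasFDerivAt_normSq (Z k)).comp Z (pj k).hasFDerivAt
  have e : (nsq : HC N → ℝ) = fun y => ∑ k, ((fun z : ℂ => Complex.normSq z) ∘ pj k) y :=
    funext fun y => Finset.sum_congr rfl fun k _ => (Complex.normSq_eq_norm_sq _).symm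
  rw [e]
  refine h.congr_fderiv (ContinuousLinearMap.ext fun v => ?_)
  simp [lam_apply, Finset.mul_sum, mul_add, mul_assoc]

/-- the connection form on `ℂ^{N+1} ∖ 0` -/
def cn0 (Z : HC N) : Ext (HC N) := ((2 * Real.pi)⁻¹ * (nsq Z)⁻¹) • eta Z

theorem contDiffAt_cn0 {Z : HC N} (hZ : Z ≠ 0) : ContDiffAt ℝ ∞ cn0 Z :=
  (contDiffAt_const.mul ((contDiffAt_nsq fun k => (pj k).contDiff.contDiffAt).inv
    (nsq_pos hZ).ne')).smul contDiff_eta.contDiffAt

theorem herm_hz {Z : HC N} (hZ : Z ≠ 0) :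
    herm (hz Z pj) = herm (pj (N := N)) - (nsq Z)⁻¹ • sq (lam Z) := by
  have h0 : (nsq Z : ℂ) ≠ 0 := by exact_mod_cast (nsq_pos hZ).ne'
  rw [eq_sub_iff_add_eq]
  refine ext_deg ((isDeg_herm _).add ((isDeg_sq _).smul _)) (isDeg_herm _) fun v => ?_
  rw [map_add, map_smul, AlternatingMap.add_apply, AlternatingMap.smul_apply, evA_herm, evA_herm,
    evA_sq, smul_eq_mul, ← Complex.im_ofReal_mul, ← Complex.add_im]
  congr 1
  have h1 : ∀ k, conj (hz Z pj k (v 0)) * hz Z pj k (v 1) = conj (v 0 k) * v 1 k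
      - (nsq Z : ℂ)⁻¹ * lam Z (v 1) * conj (conj (Z k) * v 0 k)
      - (nsq Z : ℂ)⁻¹ * conj (lam Z (v 0)) * (conj (Z k) * hz Z pj k (v 1)) := fun k => by
    simp only [hz_apply, pj_apply, ← lam_apply, map_sub, map_mul, map_div₀, Complex.conj_ofReal,
      Complex.conj_conj]
    ring
  simp only [h1, Finset.sum_sub_distrib, ← Finset.mul_sum, ← map_sum, ← lam_apply, sum_hz hZ,
    pj_apply]
  push_cast
  ring

theorem d_cn0 {Z : HC N} (hZ : Z ≠ 0) :
    d cn0 Z = (Real.pi⁻¹ * (nsq Z)⁻¹) • herm (hz Z pj) := by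
  have h0 := (nsq_pos hZ).ne'
  have hg := ((hasDerivAt_inv h0).comp_hasFDerivAt Z (hasFDerivAt_nsq Z)).const_mul (2 * Real.pi)⁻¹
  have e : (((2 * Real.pi)⁻¹ • (-(nsq Z ^ 2)⁻¹) • (2 : ℝ) • Complex.reCLM.comp (lam Z) :
      HC N →L[ℝ] ℝ) : Dual ℝ (HC N)) = (-(Real.pi⁻¹ * (nsq Z ^ 2)⁻¹)) • reD (lam Z) := by
    refine LinearMap.ext fun v => ?_
    simp
    ring
  unfold cn0
  rw [d_smul (g := fun Z : HC N => (2 * Real.pi)⁻¹ * (nsq Z)⁻¹) hg.differentiableAt
    (contDiff_eta.differentiable (by simp) Z), d_eta, eta_eq, herm_hz hZ,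
    show fderiv ℝ (fun Z : HC N => (2 * Real.pi)⁻¹ * (nsq Z)⁻¹) Z = _ from hg.fderiv, e, map_smul,
    smul_mul_assoc, ← Man.sq, smul_sub, smul_smul, smul_smul, neg_smul, neg_add_eq_sub]
  congr 2
  · ring
  · ring

/-- the connection form of a family of functions without common zero -/
def cn (Z : V → HC N) : V → Ext V := pull Z cn0

variable {Z : V → HC N} {x : V}

theorem cn_eq (Z : V → HC N) (x : V) : cn Z x =
    (2 * Real.pi)⁻¹ • io (imc (nsq (Z x) : ℂ)⁻¹ ((lam (Z x)).comp (fderiv ℝ Z x))) := by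
  rw [cn, pull, cn0, map_smul, eta_eq, pb_io, mul_smul, ← map_smul]
  congr 2
  refine LinearMap.ext fun v => ?_
  rw [imc_apply, ← Complex.ofReal_inv, Complex.im_ofReal_mul]
  rfl

theorem isDeg_io (l : Dual ℝ V) : IsDeg 1 (io l) := by
  simpa [ExteriorAlgebra.ιMulti_apply] using IsDeg.iMulti (E := V) ![l]

theorem hom_cn (Z : V → HC N) : Hom 1 (cn Z) := fun x => by
  rw [cn_eq]; exact (isDeg_io _).smul _

theorem hom_ang (f : V → ℂ) : Hom 1 (ang f) := fun x => by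
  rw [ang_eq]; exact (isDeg_io _).smul _

theorem inv_of_one {c : Ext V} (h : IsDeg 1 c) : inv c = - c := by
  refine ext_evA fun q => ?_
  rw [evA_inv, map_neg]
  by_cases hq : q = 1
  · subst hq; ext v; simp
  · rw [h q hq]; simp

theorem contDiffAt_cn (hZ : ContDiffAt ℝ ∞ Z x) (h0 : Z x ≠ 0) : ContDiffAt ℝ ∞ (cn Z) x :=
  contDiffAt_pull hZ (le_refl _) (contDiffAt_cn0 h0)

theorem cn_smul {h : V → ℂ} (hh : DifferentiableAt ℝ h x) (hZ : DifferentiableAt ℝ Z x)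
    (h0 : h x ≠ 0) (h1 : Z x ≠ 0) : cn (fun y => h y • Z y) x = ang h x + cn Z x := by
  have h2 : (nsq (Z x) : ℂ) ≠ 0 := by exact_mod_cast (nsq_pos h1).ne'
  have h3 : conj (h x) ≠ 0 := (map_ne_zero _).2 h0
  have h4 : ((‖h x‖ ^ 2 : ℝ) : ℂ) = h x * conj (h x) := by rw [Complex.mul_conj']; norm_cast
  have h5 : lam (Z x) (Z x) = nsq (Z x) := by
    rw [lam_apply, nsq_eq]; exact Finset.sum_congr rfl fun k _ => mul_comm _ _
  have h6 : ∀ w, lam (h x • Z x) w = conj (h x) * lam (Z x) w := fun w => by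
    simp [lam_apply, Finset.mul_sum, mul_assoc]
  have h7 : ∀ (c : ℂ) w, lam (Z x) (c • w) = c * lam (Z x) w := fun c w => by
    simp [lam_apply, Finset.mul_sum, mul_left_comm]
  rw [cn_eq, cn_eq, ang_eq, ← smul_add, ← map_add, (hh.hasFDerivAt.fun_smul hZ.hasFDerivAt).fderiv]
  congr 2
  refine LinearMap.ext fun v => ?_
  simp only [imc_apply, LinearMap.add_apply, ← Complex.add_im, ContinuousLinearMap.comp_apply,
    _root_.add_apply, _root_.smul_apply, ContinuousLinearMap.smulRight_apply, h6, map_add, h7, h5,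
    nsq_smul, Complex.ofReal_mul, h4]
  congr 1
  field_simp
  ring

theorem d_cn (hZ : ContDiffAt ℝ 2 Z x) (h0 : Z x ≠ 0) : d (cn Z) x =
    (Real.pi⁻¹ * (nsq (Z x))⁻¹) • herm (hz (Z x) fun k => (pj k).comp (fderiv ℝ Z x)) := by
  rw [cn, d_pull hZ ((contDiffAt_cn0 h0).differentiableAt (by simp)), pull, d_cn0 h0, map_smul,
    pb_herm]
  congr 2
  funext k
  refine ContinuousLinearMap.ext fun v => ?_
  rw [ContinuousLinearMap.comp_apply, hz_apply, hz_apply]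
  rfl

/-- the Fubini-Study form, of integral one on a line -/
def fs (N : ℕ) (q : Hm N) : Ext (Hm N) := (2 * Real.pi)⁻¹ • (sf 1 toM q).im

theorem sm_toM (q : Hm N) : SM ∞ toM q := fun a b => (contDiff_entry (a, b)).contDiffAt

theorem contDiff_fs : ContDiff ℝ ∞ (fs N) := contDiff_iff_contDiffAt.2 fun q =>
  (CD_sf (sm_toM q) (le_refl _) 1).im.const_smul _

theorem hom_fs : Hom 2 (fs N) := fun q => (degC_sf 1 toM q).2.smul _

theorem pull_fs' {Φ : V → Hm N} (hΦ : ContDiffAt ℝ 2 Φ x) :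
    pull Φ (fs N) x = (2 * Real.pi)⁻¹ • (sf 1 (fun y => toM (Φ y)) x).im := by
  rw [← pullC_sf hΦ ((sm_toM _).of_le (by exact_mod_cast le_top))]
  exact map_smul (pb _) _ _

theorem contDiffAt_ofM (hZ : ContDiffAt ℝ ∞ Z x) (h0 : Z x ≠ 0) :
    ContDiffAt ℝ ∞ (fun y => ofM (pm (Z y))) x :=
  (contDiffAt_piLp 2).2 fun p => contDiffAt_pm (contDiffAt_pi.1 hZ) h0 p.1 p.2

theorem sf_cn (hZ : ContDiffAt ℝ 2 Z x) (h0 : Z x ≠ 0) :
    sf 1 (fun y => pm (Z y)) x = ⟨0, (2 * Real.pi) • d (cn Z) x⟩ := by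
  rw [d_cn hZ h0, sf_pm (Z := Z) (fun k => (pj k).hasFDerivAt.comp x
    (hZ.differentiableAt (by simp)).hasFDerivAt) h0, smul_smul]
  congr 2
  have := Real.pi_ne_zero
  field_simp

/-- the curvature of the tautological connection is the Fubini-Study form -/
theorem pull_fs (hZ : ContDiffAt ℝ ∞ Z x) (h0 : Z x ≠ 0) :
    pull (fun y => ofM (pm (Z y))) (fs N) x = d (cn Z) x := by
  rw [pull_fs' ((contDiffAt_ofM hZ h0).of_le two_le)]
  simp only [toM_ofM]
  rw [sf_cn (hZ.of_le two_le) h0, smul_smul, inv_mul_cancel₀ Real.two_pi_pos.ne', one_smul]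

/-! ### gluing -/

variable {n : ℕ} {M : Type} [TopologicalSpace M] [CompactSpace M] {A : Atl n M} {E G : Type}
  [NormedAddCommGroup E] [NormedSpace ℝ E] [FiniteDimensional ℝ E] [NormedAddCommGroup G]
  [NormedSpace ℝ G] (ε : Emb A E)

theorem glue {U : Set M} (hU : IsOpen U) {t : M → Set G} (ht : ∀ x ∈ U, Convex ℝ (t x))
    (h : ∀ x ∈ U, ∃ g : E → G, ∀ᶠ y in 𝓝 x, ContDiffAt ℝ ∞ g (ε.j y) ∧ g (ε.j y) ∈ t y) :
    ∃ g : E → G, ∀ x ∈ U, ContDiffAt ℝ ∞ g (ε.j x) ∧ g (ε.j x) ∈ t x := by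
  obtain ⟨g, h1, h2⟩ := exists_of_local (G := G) ε.isClosed_X (ε.isOpen_op hU)
    (t := fun q => {b | ∀ x, ε.j x = q → b ∈ t x})
    (by
      rintro _ ⟨⟨x, rfl⟩, hx⟩ a ha b hb r s hr hs hrs y hy
      exact ht y (ε.mem_op.1 (hy ▸ hx)) (ha y hy) (hb y hy) hr hs hrs)
    (by
      rintro _ ⟨⟨x, rfl⟩, hx⟩
      obtain ⟨g, hg⟩ := h x (ε.mem_op.1 hx)
      obtain ⟨W, h1, h2, h3⟩ := eventually_nhds_iff.1 hg
      obtain ⟨g', h4, h5⟩ := ε.exists_ext_on h2 (ε.smOn_comp fun y hy => (h1 y hy).1)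
      refine ⟨_, (ε.isOpen_op h2).mem_nhds (ε.mem_op.2 h3), g',
        fun q hq => (h4 q hq).contDiffWithinAt, ?_⟩
      rintro q hq - y rfl
      rw [h5 y (ε.mem_op.1 hq)]
      exact (h1 y (ε.mem_op.1 hq)).2)
  exact ⟨g, fun x hx => ⟨h1 _ (ε.mem_op.2 hx), h2 _ ⟨ε.mem x, ε.mem_op.2 hx⟩ x rfl⟩⟩

theorem res_d_congr {a b : E → Ext E} {x : M} (ha : DifferentiableAt ℝ a (ε.j x))
    (hb : DifferentiableAt ℝ b (ε.j x))
    (h : ∀ᶠ y in 𝓝 x, res ε.X (ε.j y) (a (ε.j y)) = res ε.X (ε.j y) (b (ε.j y))) :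
    res ε.X (ε.j x) (d a (ε.j x)) = res ε.X (ε.j x) (d b (ε.j x)) := by
  have h1 := res_d_zero ε.sub (ε.mem x) (ha.fun_sub hb)
    ((eventually_X ε).2 (h.mono fun y hy => by rw [map_sub, hy, sub_self]))
  rwa [d_sub ha hb, map_sub, sub_eq_zero] at h1

end Crest.Agent.X262.PL
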