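import Crest.Agent.X262.PL.Main
import Crest.Agent.R208.OE1

/-!
# Row 262, PL (helper92), part Gys: Thom form and Gysin map of a cooriented divisor

* `Tube Y g`  : retraction of a neighbourhood of `g (Y)` onto `Y` and cut-off functions;
* `Th n X o Y oY g θ c` : `g : Y → X` embedded divisor, `θ` singular connection form, `c` curvature;
* `Th.gys h a : H X` for `a : H Y`, with
  `Th.gys_adj` (adjoint of `g^*`), `Th.gys_self` (`g^* g_* a = g^* c · a`),
  `Th.gys_bc` (base change along `u : P → X`, integrated against closed classes), `Th.pl0`.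
-/

set_option autoImplicit false
set_option linter.unusedSectionVars false

open Set Filter Topology Module MeasureTheory
open scoped ContDiff Manifold
open Crest.Agent.R208.F Crest.Agent.R208.FI Crest.Agent.R208.CW
open Crest.Agent.R208.T (Sm Cl Eqv Coh pb_pull_eq_zero)

noncomputable section

namespace Crest.Agent.X262.PL

variable {E E' F : Type*} [NormedAddCommGroup E] [NormedSpace ℝ E] [FiniteDimensional ℝ E]
  [NormedAddCommGroup E'] [NormedSpace ℝ E'] [FiniteDimensional ℝ E']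
  [NormedAddCommGroup F] [NormedSpace ℝ F] [FiniteDimensional ℝ F]
  {n : ℕ} {X : Set E} {o θ c : E → Ext E} {Y : Set E'} {oY : E' → Ext E'} {g : E' → E}

theorem inv_d_odd {β : E → Ext E} (h : ∀ q, inv (β q) = - β q) (x : E) : inv (d β x) = d β x := by
  by_cases hd : DifferentiableAt ℝ β x
  · have h1 := d_inv hd
    simp only [h] at h1
    rw [d_neg, neg_inj] at h1
    exact h1.symm
  · rw [d, fderiv_zero_of_not_differentiableAt hd, map_zero, map_zero]

theorem exists_cutoff {K U : Set E} (hK : IsCompact K) (hU : IsOpen U) (hKU : K ⊆ U) :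
    ∃ (χ : E → ℝ) (L : Set E), ContDiff ℝ ∞ χ ∧ IsCompact L ∧ L ⊆ U ∧
      (∀ q ∈ K, χ =ᶠ[𝓝 q] fun _ => 1) ∧ ∀ q, q ∉ L → χ q = 0 := by
  obtain ⟨L, hL, h1, h2⟩ := exists_compact_between hK hU hKU
  obtain ⟨f, h3, h4, -⟩ := exists_contMDiffMap_one_nhds_of_subset_interior (n := (⊤ : ℕ∞))
    𝓘(ℝ, E) hK.isClosed h1
  exact ⟨f, L, f.contMDiff.contDiff, hL, h2, fun q hq => h3.filter_mono (nhds_le_nhdsSet hq), h4⟩

/-- real closed even forms as complex forms -/
theorem ofR_mem_Z (hs : Sm X c) (he : ∀ q, inv (c q) = c q) (hc : Cl X c) :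
    (fun q => Cx.ofR (c q)) ∈ Z X :=
  ⟨fun q => Cx.ext (he q) (map_zero _), fun q hq => ⟨hs q hq, contDiffAt_const⟩, fun q hq =>
    Cx.ext (hc q hq) (by
      change res X q (d (fun _ => 0) q) = 0
      rw [d_const, map_zero])⟩

theorem pullC_mul (f : F → E) (a b : E → CF E) (p : F) :
    pullC f (fun q => a q * b q) p = pullC f a p * pullC f b p := map_mul (pbC _) _ _

theorem pullC_ofR (f : F → E) (a : E → Ext E) (p : F) :
    pullC f (fun q => Cx.ofR (a q)) p = Cx.ofR (pull f a p) := Cx.ext rfl (map_zero _)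

/-- a retraction of a neighbourhood `O` of `g (Y)` onto `Y`, and cut-off functions -/
structure Tube (Y : Set E') (g : E' → E) where
  /-- the retraction -/
  R : E → E'
  /-- vanishes near `g (Y)` -/
  ρ : E → ℝ
  /-- equal to one where `ρ ≠ 1` -/
  χ : E → ℝ
  /-- the neighbourhood -/
  O : Set E
  oO : IsOpen O
  RC : ∀ q ∈ O, ContDiffAt ℝ ∞ R q
  maps : MapsTo R O Y
  left : ∀ y ∈ Y, R (g y) = y
  ρC : ContDiff ℝ ∞ ρ
  χC : ContDiff ℝ ∞ χ
  ρ0 : ∀ y ∈ Y, ρ =ᶠ[𝓝 (g y)] fun _ => 0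
  sup : tsupport χ ⊆ O
  alt : ∀ q, (χ =ᶠ[𝓝 q] fun _ => 1) ∨ ρ =ᶠ[𝓝 q] fun _ => 1

theorem Dv.exists_tube (h : Dv n X Y oY g) {U : Set E} (hU : IsOpen U) (hYU : g '' Y ⊆ U) :
    ∃ T : Tube Y g, T.O ⊆ U := by
  obtain ⟨G, hG, hGg⟩ := h.exists_inv
  obtain ⟨r, O, hO, hZO, hr, hm, h1⟩ := R208.OE.exists_ret h.clo_image
  obtain ⟨f₁, L₁, a1, a2, a3, a4, a5⟩ := exists_cutoff h.clo_image.compact (hO.inter hU)
    (subset_inter hZO hYU)
  obtain ⟨f₂, L₂, b1, b2, b3, b4, b5⟩ := exists_cutoff a2 (hO.inter hU) a3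
  refine ⟨⟨fun q => G (r q), fun q => 1 - f₁ q, f₂, O ∩ U, hO.inter hU,
    fun q hq => hG.contDiffAt.comp q (hr.contDiffAt (hO.mem_nhds hq.1)), fun q hq => ?_,
    fun y hy => ?_, contDiff_const.sub a1, b1, fun y hy => ?_, ?_, fun q => ?_⟩, inter_subset_right⟩
  · obtain ⟨y, hy, h2⟩ := hm hq.1
    change G (r q) ∈ Y
    rw [← h2, hGg y hy]; exact hy
  · rw [h1 _ ⟨y, hy, rfl⟩, hGg y hy]
  · filter_upwards [a4 _ ⟨y, hy, rfl⟩] with q hq
    rw [hq, sub_self]
  · refine (closure_minimal (fun q hq => ?_) b2.isClosed).trans b3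
    by_contra h2
    exact hq (b5 q h2)
  · by_cases hq : q ∈ L₁
    · exact Or.inl (b4 q hq)
    · right
      filter_upwards [a2.isClosed.isOpen_compl.mem_nhds hq] with q' hq'
      rw [a5 q' hq', sub_zero]

namespace Tube

variable (T : Tube Y g) {w : E' → CF E'} {q : E}

theorem χ1 {y : E'} (hy : y ∈ Y) : T.χ =ᶠ[𝓝 (g y)] fun _ => 1 :=
  (T.alt _).resolve_right fun h => zero_ne_one ((T.ρ0 y hy).eq_of_nhds.symm.trans h.eq_of_nhds)

theorem mem_O (h : T.χ =ᶠ[𝓝 q] fun _ => 1) : q ∈ T.O :=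
  T.sup (subset_tsupport _ (by rw [Function.mem_support, h.eq_of_nhds]; exact one_ne_zero))

/-- extension of a form on `Y` -/
def ext (w : E' → CF E') (q : E) : CF E :=
  ⟨T.χ q • (pullC T.R w q).re, T.χ q • (pullC T.R w q).im⟩

theorem ext_ev (h : T.χ =ᶠ[𝓝 q] fun _ => 1) : T.ext w =ᶠ[𝓝 q] pullC T.R w := by
  filter_upwards [h] with q' hq'
  rw [ext, hq', one_smul, one_smul]

theorem ext_cd (hw : Smo Y w) (q : E) : CD ∞ (T.ext w) q := by
  by_cases hq : q ∈ tsupport T.χ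
  · have h1 : CD ∞ (pullC T.R w) q :=
      (hw _ (T.maps (T.sup hq))).pullC (T.RC q (T.sup hq)) (by simp)
    exact ⟨T.χC.contDiffAt.smul h1.re, T.χC.contDiffAt.smul h1.im⟩
  · refine (CD.const 0).congr ?_
    filter_upwards [notMem_tsupport_iff_eventuallyEq.1 hq] with q' hq'
    rw [ext, hq', Pi.zero_apply, zero_smul, zero_smul]
    rfl

theorem ext_even (hw : w ∈ Z Y) (q : E) : invC (T.ext w q) = T.ext w q := by
  have h1 : invC (pullC T.R w q) = pullC T.R w q := by rw [pullC, ← pbC_invC, hw.1]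
  exact Cx.ext (by rw [ext, invC_re, map_smul, ← invC_re, h1])
    (by rw [ext, invC_im, map_smul, ← invC_im, h1])

theorem dC_ext (hw : w ∈ Z Y) (h : T.χ =ᶠ[𝓝 q] fun _ => 1) : dC (T.ext w) q = 0 := by
  have hq := T.mem_O h
  have hR := T.RC q hq
  rw [dC_congr (T.ext_ev h), dC_pullC (hR.of_le two_le) (hw.2.1.cd1 (T.maps hq))]
  have hmem : ∀ v, fderiv ℝ T.R q v ∈ Tan Y (T.R q) := fun v =>
    fderiv_mem_Tan (hR.differentiableAt (by simp))
      (by filter_upwards [T.oO.mem_nhds hq] with z hz using T.maps hz) v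
  have hA : ((fderiv ℝ T.R q : E →L[ℝ] E') : E →ₗ[ℝ] E') = (Tan Y (T.R q)).subtype ∘ₗ
      ((fderiv ℝ T.R q : E →L[ℝ] E') : E →ₗ[ℝ] E').codRestrict _ hmem := by
    ext v; rfl
  rw [pullC, hA, ← pbC_comp,
    show pbC (Tan Y (T.R q)).subtype _ = rs Y (T.R q) _ from rfl, hw.2.2 _ (T.maps hq), map_zero]

theorem rs_ext {Q : Set F} {k : F → E} {v : F → E'} {p : F} (hp : p ∈ Q)
    (hk : DifferentiableAt ℝ k p) (hv : DifferentiableAt ℝ v p) (hvY : MapsTo v Q Y)
    (hkv : ∀ p ∈ Q, k p = g (v p)) (w : E' → CF E') :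
    rs Q p (pullC k (T.ext w) p) = rs Q p (pullC v w p) := by
  have h1 : T.χ =ᶠ[𝓝 (k p)] fun _ => 1 := by rw [hkv p hp]; exact T.χ1 (hvY hp)
  have hR : DifferentiableAt ℝ T.R (k p) := (T.RC _ (T.mem_O h1)).differentiableAt (by simp)
  have key : ∀ a : E' → Ext E', res Q p (pull k (pull T.R a) p) = res Q p (pull v a p) := fun a => by
    rw [pull_comp hk hR]
    refine res_pull_congr a hp (hR.comp p hk) hv ?_
    filter_upwards [self_mem_nhdsWithin] with p' hp'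
    rw [Function.comp_apply, hkv p' hp', T.left _ (hvY hp')]
  rw [pullC, (T.ext_ev h1).eq_of_nhds]
  exact Cx.ext (key fun y => (w y).re) (key fun y => (w y).im)

/-- the cut-off connection form -/
def β (θ : E → Ext E) (q : E) : Ext E := T.ρ q • θ q

/-- the Thom form -/
def τ (θ c : E → Ext E) (q : E) : Ext E := c q + d (T.β θ) q

/-- the Gysin form -/
def gys (θ c : E → Ext E) (w : E' → CF E') (q : E) : CF E := Cx.ofR (T.τ θ c q) * T.ext w q

theorem β_zero {y : E'} (hy : y ∈ Y) : T.β θ =ᶠ[𝓝 (g y)] fun _ => 0 := by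
  filter_upwards [T.ρ0 y hy] with q hq
  rw [β, hq, zero_smul]

theorem β_one (h : T.ρ =ᶠ[𝓝 q] fun _ => 1) : T.β θ =ᶠ[𝓝 q] θ := by
  filter_upwards [h] with q hq
  rw [β, hq, one_smul]

theorem τ_on {y : E'} (hy : y ∈ Y) : T.τ θ c (g y) = c (g y) := by
  rw [τ, d_congr (T.β_zero hy), d_const, add_zero]

end Tube

/-- an embedded cooriented divisor `g : Y → X` with a singular connection form `θ` of
curvature `c` -/
structure Th (n : ℕ) (X : Set E) (o : E → Ext E) (Y : Set E') (oY : E' → Ext E') (g : E' → E)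
    (θ c : E → Ext E) : Prop where
  clo : Clo (n + 2) X
  ori : Ori (n + 2) X o
  dv : Dv n X Y oY g
  cs : Sm X c
  ce : ∀ q, inv (c q) = c q
  θs : ∀ q ∈ X, q ∉ g '' Y → ContDiffAt ℝ ∞ θ q
  θo : ∀ q, inv (θ q) = - θ q
  loc : ∀ x ∈ X, ∃ z, LEq n X o Y oY g z x ∧ Sg X θ c z x

theorem Sg.closed {m : ℕ} (hX : Sub m X) {x : E} (hx : x ∈ X) {s : E → ℂ} (h : Sg X θ c s x)
    (hc : DifferentiableAt ℝ c x) : res X x (d c x) = 0 := by
  obtain ⟨a, h⟩ := h
  have h2 := (h.self_of_nhdsWithin hx).2.1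
  have h3 : DifferentiableAt ℝ (d a) x :=
    (contDiffAt_d (m := 1) (h2.of_le two_le) (by norm_num)).differentiableAt (by simp)
  have h4 := res_d_zero hX hx (h3.fun_add hc) (h.mono fun q hq => hq.2.2.2.1)
  rwa [d_add h3 hc, d_d (h2.of_le two_le), zero_add] at h4

namespace Th

variable (h : Th n X o Y oY g θ c)
include h

theorem cl : Cl X c := fun x hx => by
  obtain ⟨z, -, hz⟩ := h.loc x hx
  exact hz.closed h.clo.sub hx (h.cs.diff hx)

theorem cZ : (fun q => Cx.ofR (c q)) ∈ Z X := ofR_mem_Z h.cs h.ce h.cl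

/-- the class of the curvature -/
def cH : H X := cls _ h.cZ

theorem pld : PLd (ι := Unit) (E' := fun _ => E') n X o (fun _ => Y) (fun _ => oY) (fun _ => g)
    (fun _ => 1) θ c := by
  have := PLd.of_sg (ι := Unit) (E' := fun _ => E') (n := n) (X := X) (o := o) (Y := fun _ => Y)
    (oY := fun _ => oY) (g := fun _ => g) (θ := θ) (c := c) (k := fun _ => 1) fun x hx => by
      obtain ⟨z, h1, h2⟩ := h.loc x hx
      exact ⟨fun _ => z, fun _ => h1, by simpa using h2⟩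
  simpa using this

variable (T : Tube Y g)

theorem β_sm : Sm X (T.β θ) := fun q hq => by
  by_cases hY : q ∈ g '' Y
  · obtain ⟨y, hy, rfl⟩ := hY
    exact contDiffAt_const.congr_of_eventuallyEq (T.β_zero hy)
  · exact T.ρC.contDiffAt.smul (h.θs q hq hY)

theorem β_odd (q : E) : inv (T.β θ q) = - T.β θ q := by
  rw [Tube.β, map_smul, h.θo, smul_neg]

theorem τ_sm : Sm X (T.τ θ c) := h.cs.add (h.β_sm T).d

theorem τ_even (q : E) : inv (T.τ θ c q) = T.τ θ c q := by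
  rw [Tube.τ, map_add, h.ce, inv_d_odd (h.β_odd T)]

theorem τ_cl : Cl X (T.τ θ c) :=
  Cl.add h.cs (h.β_sm T).d h.cl (R208.T.d_d' (h.β_sm T))

/-- the Thom form vanishes away from the divisor -/
theorem τ_zero {q : E} (hq : q ∈ X) (h1 : T.ρ =ᶠ[𝓝 q] fun _ => 1) : res X q (T.τ θ c q) = 0 := by
  have hY : q ∉ g '' Y := by
    rintro ⟨y, hy, rfl⟩
    exact zero_ne_one ((T.ρ0 y hy).eq_of_nhds.symm.trans h1.eq_of_nhds)
  obtain ⟨z, h2, h3⟩ := h.loc q hq
  rw [Tube.τ, d_congr (T.β_one h1)]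
  exact h3.d_eq h.clo.sub hq (fun h0 => hY ((h2.zero_iff hq).1 h0))
    ((h.θs q hq hY).differentiableAt (by simp))

theorem τZ : (fun q => Cx.ofR (T.τ θ c q)) ∈ Z X := ofR_mem_Z (h.τ_sm T) (h.τ_even T) (h.τ_cl T)

theorem cls_τ : cls _ (h.τZ T) = h.cH :=
  cls_eq_iff.2 ⟨fun q => Cx.ofR (T.β θ q), fun q hq => ⟨h.β_sm T q hq, contDiffAt_const⟩,
    fun q _ => by
      congr 1
      refine Cx.ext rfl ?_
      change (0 : Ext E) = 0 + d (fun _ => 0) q
      rw [d_const, add_zero]⟩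

theorem gysZ {w : E' → CF E'} (hw : w ∈ Z Y) : T.gys θ c w ∈ Z X := by
  have h1 := h.τZ T
  refine ⟨fun q => by rw [Tube.gys, map_mul, h1.1 q, T.ext_even hw],
    fun q hq => (h1.2.1 q hq).mul (T.ext_cd hw.2.1 q), fun q hq => ?_⟩
  have h2 := dC_mul (h1.2.1.cd1 hq) ((T.ext_cd hw.2.1 q).of_le (m := 1) (by exact_mod_cast le_top))
  rw [show T.gys θ c w = fun q => Cx.ofR (T.τ θ c q) * T.ext w q from rfl, h2, map_add, map_mul,
    map_mul, h1.2.2 q hq, zero_mul, zero_add, h1.1 q]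
  rcases T.alt q with h3 | h3
  · rw [T.dC_ext hw h3, map_zero, mul_zero]
  · rw [show rs X q (Cx.ofR (T.τ θ c q)) = 0 from Cx.ext (h.τ_zero T hq h3) (map_zero _), zero_mul]

theorem gys_on {w : E' → CF E'} {y : E'} (hy : y ∈ Y) :
    rs Y y (pullC g (T.gys θ c w) y) = rs Y y (pullC g (fun q => Cx.ofR (c q)) y * w y) := by
  have h1 := T.rs_ext hy (h.dv.smap.diff hy) differentiableAt_id (fun _ hy => hy)
    (fun _ _ => rfl) w
  have h2 : pullC id w y = w y :=
    Cx.ext (pull_id (fun y => (w y).re) y) (pull_id (fun y => (w y).im) y)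
  rw [show T.gys θ c w = fun q => Cx.ofR (T.τ θ c q) * T.ext w q from rfl, pullC_mul, map_mul,
    map_mul, h1, h2, pullC, pullC, T.τ_on hy]

variable {ι : Type*} [Fintype ι] {F' : ι → Type*} [∀ i, NormedAddCommGroup (F' i)]
  [∀ i, NormedSpace ℝ (F' i)] [∀ i, FiniteDimensional ℝ (F' i)]
  {k : ℕ} {P : Set F} {oP : F → Ext F} {u : F → E}
  {Y' : ∀ i, Set (F' i)} {oY' : ∀ i, F' i → Ext (F' i)} {g' : ∀ i, F' i → F} {m : ι → ℝ}
  {u' : ∀ i, F' i → E'}

/-- base change, on forms -/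
theorem JC_bc (hP : Clo (k + 2) P) (hoP : Ori (k + 2) P oP) (hu : SMap P X u)
    (hD : ∀ i, Dv k P (Y' i) (oY' i) (g' i)) (hL : PLd k P oP Y' oY' g' m (pull u θ) (pull u c))
    (hu' : ∀ i, SMap (Y' i) Y (u' i)) (hc : ∀ i, ∀ y ∈ Y' i, u (g' i y) = g (u' i y))
    {w : E' → CF E'} (hw : w ∈ Z Y) {φ : F → CF F} (hφ : φ ∈ Z P) :
    JC (k + 2) P oP (pullC u (T.gys θ c w) * φ)
      = ∑ i, (m i : ℂ) * JC k (Y' i) (oY' i) (pullC (u' i) w * pullC (g' i) φ) := by
  have h1 : ∀ p ∈ P, CD 1 (pullC u (T.ext w)) p := fun p hp =>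
    ((T.ext_cd hw.2.1 _).of_le (by exact_mod_cast le_top)).pullC (hu.c2 hp) (by norm_num)
  have h2 := hL.thomC hP hoP hD (continuousOn_of_contDiffAt (h.cs.pull hu)) (β := pull u (T.β θ))
    (fun p hp => ⟨((h.β_sm T).pull hu p hp).of_le (by exact_mod_cast le_top),
      inv_pull u (h.β_odd T _)⟩)
    (Φ := fun p => pullC u (T.ext w) p * φ p) (fun p hp => (h1 p hp).mul (hφ.2.1.cd1 hp))
    (fun p hp => (T.alt (u p)).imp (fun h3 => by
      rw [dC_mul (h1 p hp) (hφ.2.1.cd1 hp), dC_pullC (hu.c2 hp)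
        ((T.ext_cd hw.2.1 _).of_le (by exact_mod_cast le_top)), pullC, T.dC_ext hw h3, map_zero,
        zero_mul, zero_add, map_mul, hφ.2.2 p hp, mul_zero])
      fun h3 => by rw [pull, pull, (T.β_one h3).eq_of_nhds])
  rw [JC_congr (η := fun q => Cx.ofR (pull u c q + d (pull u (T.β θ)) q)
    * (pullC u (T.ext w) q * φ q)) hP fun p hp => ?_, h2]
  · refine Finset.sum_congr rfl fun i _ => ?_
    rw [JC_congr (hD i).clo fun y hy => ?_]
    have h3 := T.rs_ext hy (k := fun y => u (g' i y))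
      ((hu.comp (hD i).smap).diff hy) ((hu' i).diff hy) (hu' i).maps (hc i) w
    have h4 : pullC (g' i) (pullC u (T.ext w)) y = pullC (fun y => u (g' i y)) (T.ext w) y :=
      Cx.ext (pull_comp (om := fun q => (T.ext w q).re) ((hD i).smap.diff hy)
          (hu.diff ((hD i).smap.maps hy)))
        (pull_comp (om := fun q => (T.ext w q).im) ((hD i).smap.diff hy)
          (hu.diff ((hD i).smap.maps hy)))
    rw [pullC_mul, map_mul, h4, h3, Pi.mul_apply, map_mul]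
  · rw [Pi.mul_apply, show T.gys θ c w = fun q => Cx.ofR (T.τ θ c q) * T.ext w q from rfl,
      pullC_mul, pullC_ofR, mul_assoc, d_pull (hu.c2 hp) ((h.β_sm T).diff (hu.maps hp)), ← pull_add]
    rfl

/-! ### classes -/

/-- a chosen tube -/
def tube : Tube Y g := (h.dv.exists_tube isOpen_univ (subset_univ _)).choose

/-- the Gysin image of a class (it is the adjoint of `g^*`, see `gys_adj`) -/
def gys (a : H Y) : H X := cls _ (h.gysZ h.tube (Function.surjInv H.mk_surj a).2)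

theorem gys_rep (a : H Y) :
    ∃ w, ∃ hw : w ∈ Z Y, cls w hw = a ∧ h.gys a = cls _ (h.gysZ h.tube hw) :=
  ⟨_, (Function.surjInv H.mk_surj a).2, Function.surjInv_eq H.mk_surj a, rfl⟩

theorem gys_self (a : H Y) : H.map h.dv.smap (h.gys a) = H.map h.dv.smap h.cH * a := by
  obtain ⟨w, hw, e1, e2⟩ := h.gys_rep a
  rw [e2, ← e1, cH, H.map_cls, H.map_cls, ← cls_mul]
  exact cls_congr fun y hy => h.gys_on h.tube hy

/-- **base change** -/
theorem gys_bc (hP : Clo (k + 2) P) (hoP : Ori (k + 2) P oP) (hu : SMap P X u)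
    (hD : ∀ i, Dv k P (Y' i) (oY' i) (g' i)) (hL : PLd k P oP Y' oY' g' m (pull u θ) (pull u c))
    (hu' : ∀ i, SMap (Y' i) Y (u' i)) (hc : ∀ i, ∀ y ∈ Y' i, u (g' i y) = g (u' i y))
    (a : H Y) (b : H P) :
    integ hP hoP (H.map hu (h.gys a) * b) = ∑ i, (m i : ℂ) *
      integ (hD i).clo (hD i).ori (H.map (hu' i) a * H.map (hD i).smap b) := by
  obtain ⟨φ, hφ, rfl⟩ := H.exists_rep b
  obtain ⟨w, hw, e1, e2⟩ := h.gys_rep a
  rw [e2, ← e1, H.map_cls, ← cls_mul, integ_cls, h.JC_bc h.tube hP hoP hu hD hL hu' hc hw hφ]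
  refine Finset.sum_congr rfl fun i _ => ?_
  rw [H.map_cls, H.map_cls, ← cls_mul, integ_cls]

/-- **adjointness** -/
theorem gys_adj (a : H Y) (b : H X) :
    integ h.clo h.ori (h.gys a * b) = integ h.dv.clo h.dv.ori (a * H.map h.dv.smap b) := by
  have h1 : ∀ a : E → Ext E, pull (fun x => x) a = a := fun a => funext (pull_id a)
  have := h.gys_bc (ι := Unit) (F' := fun _ => E') (m := fun _ => 1) h.clo h.ori (SMap.id X)
    (fun _ => h.dv) (by rw [h1, h1]; exact h.pld) (fun _ => SMap.id Y) (fun _ _ _ => rfl) a b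
  simpa [H.map_id] using this

end Th

/-- **PL0** on classes -/
theorem PLd.integ {ι : Type*} [Fintype ι] {F' : ι → Type*} [∀ i, NormedAddCommGroup (F' i)]
    [∀ i, NormedSpace ℝ (F' i)] [∀ i, FiniteDimensional ℝ (F' i)]
    {Y' : ∀ i, Set (F' i)} {oY' : ∀ i, F' i → Ext (F' i)} {g' : ∀ i, F' i → E} {m : ι → ℝ}
    (hX : Clo (n + 2) X) (ho : Ori (n + 2) X o) (hD : ∀ i, Dv n X (Y' i) (oY' i) (g' i))
    (h : PLd n X o Y' oY' g' m θ c) (hc : (fun q => Cx.ofR (c q)) ∈ Z X) (b : H X) :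
    integ hX ho (cls _ hc * b)
      = ∑ i, (m i : ℂ) * integ (hD i).clo (hD i).ori (H.map (hD i).smap b) := by
  obtain ⟨φ, hφ, rfl⟩ := H.exists_rep b
  rw [← cls_mul, integ_cls]
  simp only [H.map_cls, integ_cls]
  exact h.closedC hX ho hD hc.2.1.cont_re hφ

theorem Th.pl0 (h : Th n X o Y oY g θ c) (b : H X) :
    integ h.clo h.ori (h.cH * b) = integ h.dv.clo h.dv.ori (H.map h.dv.smap b) := by
  simpa [Th.cH] using PLd.integ h.clo h.ori (fun _ => h.dv) h.pld h.cZ b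

end Crest.Agent.X262.PL
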