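import Crest.Agent.X262.PL.Chart

/-!
# Row 262, PL (helper92), part Main: the Poincaré–Lelong formula

* `Sg X θ c s x` : near `x`, `θ = ang s + a` off the zeros of `s`, `a` smooth and odd, `da = -c`;
  `Sg.pull`, `Sg.unit`;
* `PLd n X o Y oY g m θ c` : locally `θ = ∑ mᵢ ang zᵢ + a`, `zᵢ` positive equations of `gᵢ (Yᵢ)`;
  `PLd.of_sg`;
* `PLd.current` : `∫ c φ + ∫ θ dφ = ∑ mᵢ ∫_{Yᵢ} φ`; `PLd.closed`, `PLd.thom` and complex versions.
-/

set_option autoImplicit false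
set_option linter.unusedSectionVars false

open Set Filter Topology Module MeasureTheory
open scoped ContDiff
open Crest.Agent.R208.F Crest.Agent.R208.FI Crest.Agent.R208.CW
open Crest.Agent.R208.T (Sm Cl Eqv Coh pb_pull_eq_zero)

noncomputable section

namespace Crest.Agent.X262.PL

variable {E F : Type*} [NormedAddCommGroup E] [NormedSpace ℝ E] [FiniteDimensional ℝ E]
  [NormedAddCommGroup F] [NormedSpace ℝ F] [FiniteDimensional ℝ F]
  {n : ℕ} {X : Set E} {o θ c φ : E → Ext E} {x : E}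

/-! ### local lemmas on restrictions -/

theorem fderiv_congr_tan {G : Type*} [NormedAddCommGroup G] [NormedSpace ℝ G] {f f' : E → G}
    (hf : DifferentiableAt ℝ f x) (hf' : DifferentiableAt ℝ f' x) (h : f =ᶠ[𝓝[X] x] f') {v : E}
    (hv : v ∈ Tan X x) : fderiv ℝ f x v = fderiv ℝ f' x v := by
  refine Submodule.span_induction (p := fun w _ => fderiv ℝ f x w = fderiv ℝ f' x w) ?_ ?_ ?_ ?_ hv
  · rintro w ⟨γ, rfl, hγ, hS⟩
    have h1 := hf.hasFDerivAt.comp_hasDerivAt 0 hγ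
    have h2 := hf'.hasFDerivAt.comp_hasDerivAt 0 hγ
    have h3 : (f ∘ γ) =ᶠ[𝓝 0] (f' ∘ γ) :=
      (tendsto_nhdsWithin_iff.2 ⟨hγ.continuousAt, hS⟩).eventually h
    exact (h1.congr_of_eventuallyEq h3.symm).unique h2
  · simp
  · intro a b _ _ ha hb; simp only [map_add, ha, hb]
  · intro r a _ ha; simp only [map_smul, ha]

theorem res_pull_congr {f f' : E → F} (w : F → Ext F) (hx : x ∈ X) (hf : DifferentiableAt ℝ f x)
    (hf' : DifferentiableAt ℝ f' x) (h : f =ᶠ[𝓝[X] x] f') :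
    res X x (pull f w x) = res X x (pull f' w x) := by
  rw [pull, pull, pb_comp, pb_comp, h.self_of_nhdsWithin hx]
  congr 2
  exact LinearMap.ext fun v => fderiv_congr_tan hf hf' h v.2

theorem res_pull {Y : Set F} {f : E → F} (hf : DifferentiableAt ℝ f x) (hXY : MapsTo f X Y)
    {a b : F → Ext F} (h : res Y (f x) (a (f x)) = res Y (f x) (b (f x))) :
    res X x (pull f a x) = res X x (pull f b x) := by
  rw [← sub_eq_zero, ← map_sub] at h
  have := pb_pull_eq_zero hf hXY h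
  rwa [map_sub, map_sub, sub_eq_zero] at this

theorem res_d_zero {m : ℕ} (hX : Sub m X) (hx : x ∈ X) {a : E → Ext E}
    (ha : DifferentiableAt ℝ a x) (h : ∀ᶠ q in 𝓝[X] x, res X q (a q) = 0) :
    res X x (d a x) = 0 := by
  obtain ⟨f, V, hf, u, hu, rfl⟩ := hX x hx
  rw [R208.T.res_chart hf hu]
  have h2 : ContDiffAt ℝ 2 f u := (hf.contDiffAt hu).of_le two_le
  change pull f (d a) u = 0
  rw [← d_pull h2 ha]
  have h3 : Tendsto f (𝓝 u) (𝓝[X] (f u)) := tendsto_nhdsWithin_iff.2 ⟨h2.continuousAt, by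
    filter_upwards [hf.isOpen.mem_nhds hu] with w hw using hf.mem hw⟩
  have h4 : pull f a =ᶠ[𝓝 u] fun _ => 0 := by
    filter_upwards [h3.eventually h, hf.isOpen.mem_nhds hu] with w hw hwV
    exact (R208.T.res_chart hf hwV _).1 hw
  rw [d_congr h4, d_const]

theorem inv_pull (f : E → F) {w : F → Ext F} (h : inv (w (f x)) = - w (f x)) :
    inv (pull f w x) = - pull f w x := by
  rw [pull, ← pb_inv, h, map_neg]

/-! ### singular connection forms -/

/-- near `x` the form `θ` is `ang s + a` off the zeros of `s`, with `a` smooth, odd, `da = - c` -/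
def Sg (X : Set E) (θ c : E → Ext E) (s : E → ℂ) (x : E) : Prop :=
  ∃ a : E → Ext E, ∀ᶠ q in 𝓝[X] x, ContDiffAt ℝ ∞ s q ∧ ContDiffAt ℝ ∞ a q ∧ inv (a q) = - a q ∧
    res X q (d a q + c q) = 0 ∧ (s q ≠ 0 → res X q (θ q) = res X q (ang s q + a q))

theorem SMap.tendsto {P : Set F} {u : F → E} (hu : SMap P X u) {p : F} (hp : p ∈ P) :
    Tendsto u (𝓝[P] p) (𝓝[X] (u p)) :=
  (hu.smooth p hp).continuousAt.continuousWithinAt.tendsto_nhdsWithin hu.maps

theorem Sg.pull {s : E → ℂ} {P : Set F} {u : F → E} (hu : SMap P X u) {p : F} (hp : p ∈ P)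
    (h : Sg X θ c s (u p)) : Sg P (pull u θ) (pull u c) (fun q => s (u q)) p := by
  obtain ⟨a, h⟩ := h
  refine ⟨R208.F.pull u a, ?_⟩
  filter_upwards [(SMap.tendsto hu hp).eventually h, self_mem_nhdsWithin] with q hq hqP
  obtain ⟨h1, h2, h3, h4, h5⟩ := hq
  refine ⟨h1.comp q (hu.smooth q hqP), contDiffAt_pull (hu.smooth q hqP) (by simp) h2,
    inv_pull u h3, ?_, fun h0 => ?_⟩
  · rw [d_pull (hu.c2 hqP) (h2.differentiableAt (by simp)), ← pull_add]
    exact pb_pull_eq_zero (hu.diff hqP) hu.maps h4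
  · rw [← ang_comp (hu.diff hqP) (h1.differentiableAt (by simp)), ← pull_add]
    exact res_pull (b := fun y => ang s y + a y) (hu.diff hqP) hu.maps (h5 h0)

/-- change of the equation by a unit -/
theorem Sg.unit {s s' ε : E → ℂ} (h : Sg X θ c s x)
    (hs : ∀ᶠ q in 𝓝[X] x, ContDiffAt ℝ ∞ s' q ∧ ContDiffAt ℝ ∞ ε q ∧ ε q ≠ 0 ∧ s q = ε q * s' q) :
    Sg X θ c s' x := by
  obtain ⟨a, h⟩ := h
  refine ⟨fun q => ang ε q + a q, ?_⟩
  filter_upwards [h, hs, eventually_eventually_nhdsWithin.2 hs, self_mem_nhdsWithin]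
    with q hq hq' hq2 hqX
  obtain ⟨h1, h2, h3, h4, h5⟩ := hq
  obtain ⟨k1, k2, k3, k4⟩ := hq'
  have k5 : ContDiffAt ℝ ∞ (ang ε) q := contDiffAt_ang k2 (by simp) k3
  refine ⟨k1, k5.add h2, by rw [map_add, inv_ang, h3, neg_add], ?_, fun h0 => ?_⟩
  · rw [d_add (k5.differentiableAt (by simp)) (h2.differentiableAt (by simp)),
      d_ang (k2.of_le two_le) k3, zero_add, h4]
  · have k6 := k1.differentiableAt (by simp)
    have k7 := k2.differentiableAt (by simp)
    rw [h5 (by rw [k4]; exact mul_ne_zero k3 h0), ← add_assoc, add_comm (ang s' q),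
      ← ang_mul k7 k6 k3 h0, map_add, map_add]
    congr 1
    exact res_pull_congr _ hqX (h1.differentiableAt (by simp)) (k7.fun_mul k6)
      (hq2.mono fun y hy => hy.2.2.2)

/-- off the zeros, `dθ = -c` -/
theorem Sg.d_eq {m : ℕ} (hX : Sub m X) (hx : x ∈ X) {s : E → ℂ} (h : Sg X θ c s x) (h0 : s x ≠ 0)
    (hθ : DifferentiableAt ℝ θ x) : res X x (c x + d θ x) = 0 := by
  obtain ⟨a, h⟩ := h
  obtain ⟨h1, h2, -, h4, -⟩ := h.self_of_nhdsWithin hx
  have k1 : DifferentiableAt ℝ (ang s) x :=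
    (contDiffAt_ang (m := 1) (n := 2) (h1.of_le two_le) (by norm_num) h0).differentiableAt (by simp)
  have k2 : DifferentiableAt ℝ a x := h2.differentiableAt (by simp)
  have k3 := res_d_zero hX hx (a := fun q => θ q - (ang s q + a q)) (hθ.fun_sub (k1.fun_add k2)) (by
    filter_upwards [h, nhdsWithin_le_nhds (h1.continuousAt.eventually_ne h0)] with q hq hq0
    rw [map_sub, hq.2.2.2.2 hq0, sub_self])
  rw [d_sub hθ (k1.fun_add k2), d_add k1 k2, d_ang (h1.of_le two_le) h0, zero_add, map_sub,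
    sub_eq_zero] at k3
  rw [map_add, k3, add_comm, ← map_add, h4]

/-! ### the formula -/

variable {ι : Type*} [Fintype ι] {E' : ι → Type*} [∀ i, NormedAddCommGroup (E' i)]
  [∀ i, NormedSpace ℝ (E' i)] [∀ i, FiniteDimensional ℝ (E' i)]
  {Y : ∀ i, Set (E' i)} {oY : ∀ i, E' i → Ext (E' i)} {g : ∀ i, E' i → E} {m : ι → ℝ}

/-- locally `θ = ∑ mᵢ ang zᵢ + a` off the divisors, `a` of class `C¹`, odd, `da = -c` -/
def PLd (n : ℕ) (X : Set E) (o : E → Ext E) (Y : ∀ i, Set (E' i)) (oY : ∀ i, E' i → Ext (E' i))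
    (g : ∀ i, E' i → E) (m : ι → ℝ) (θ c : E → Ext E) : Prop :=
  ∀ x ∈ X, ∃ (z : ι → E → ℂ) (a : E → Ext E), (∀ i, LEq n X o (Y i) (oY i) (g i) (z i) x) ∧
    ∀ᶠ q in 𝓝[X] x, ContDiffAt ℝ 1 a q ∧ inv (a q) = - a q ∧ res X q (d a q + c q) = 0 ∧
      ((∀ i, q ∉ g i '' Y i) → res X q (θ q) = res X q (∑ i, m i • ang (z i) q + a q))

theorem PLd.of_sg {k : ι → ℕ} (h : ∀ x ∈ X, ∃ z : ι → E → ℂ,
      (∀ i, LEq n X o (Y i) (oY i) (g i) (z i) x) ∧ Sg X θ c (fun q => ∏ i, z i q ^ k i) x) :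
    PLd n X o Y oY g (fun i => k i) θ c := by
  intro x hx
  obtain ⟨z, hz, a, h⟩ := h x hx
  refine ⟨z, a, hz, ?_⟩
  filter_upwards [h, eventually_all.2 fun i => (hz i).near] with q hq hq'
  refine ⟨hq.2.1.of_le (by exact_mod_cast le_top), hq.2.2.1, hq.2.2.2.1, fun h0 => ?_⟩
  have h1 : ∀ i, z i q ≠ 0 := fun i h1 => h0 i ((hq' i).2.1 h1)
  have h2 : ∀ i, DifferentiableAt ℝ (z i) q := fun i => (hq' i).1.differentiableAt (by simp)
  rw [hq.2.2.2.2 (Finset.prod_ne_zero_iff.2 fun i _ => pow_ne_zero _ (h1 i)),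
    ang_prod Finset.univ (f := fun i q => z i q ^ k i) (fun i _ => (h2 i).fun_pow _)
      (fun i _ => pow_ne_zero _ (h1 i))]
  simp only [ang_pow (h2 _) (h1 _)]

theorem Dv.cont_pull {E' : Type*} [NormedAddCommGroup E'] [NormedSpace ℝ E']
    [FiniteDimensional ℝ E'] {Y : Set E'} {oY : E' → Ext E'} {g : E' → E} (h : Dv n X Y oY g)
    (hφ : ∀ x ∈ X, ContDiffAt ℝ 1 φ x) : ContinuousOn (pull g φ) Y := fun y hy =>
  (contDiffAt_pull (n := 2) (h.smap.c2 hy) (by norm_num)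
    (hφ _ (h.smap.maps hy))).continuousAt.continuousWithinAt

theorem continuousOn_mul {a b : E → Ext E} (ha : ContinuousOn a X) (hb : ContinuousOn b X) :
    ContinuousOn (fun x => a x * b x) X :=
  (mulL E).continuous₂.comp_continuousOn (ha.prodMk hb)

/-- **Poincaré–Lelong formula** (currents) -/
theorem PLd.current (hX : Clo (n + 2) X) (ho : Ori (n + 2) X o)
    (hD : ∀ i, Dv n X (Y i) (oY i) (g i)) (h : PLd n X o Y oY g m θ c) (hc : ContinuousOn c X)
    (hφ : ∀ x ∈ X, ContDiffAt ℝ 1 φ x) :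
    Int (n + 2) X o (fun q => θ q * d φ q) ∧
      J (n + 2) X o (fun q => c q * φ q) + J (n + 2) X o (fun q => θ q * d φ q)
        = ∑ i, m i * J n (Y i) (oY i) (pull (g i) φ) := by
  have hZ : Null (n + 2) (⋃ i, g i '' Y i) := Null.iUnion fun i => (hD i).null
  refine localise (k := 1) (P := fun φ => Int (n + 2) X o (fun q => θ q * d φ q) ∧
      J (n + 2) X o (fun q => c q * φ q) + J (n + 2) X o (fun q => θ q * d φ q)
        = ∑ i, m i * J n (Y i) (oY i) (pull (g i) φ)) hX.compact ?_ ?_ ?_ ?_ hφ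
  · have h0 : ∀ i, pull (g i) (fun _ => (0 : Ext E)) = fun _ => 0 := fun i =>
      funext fun y => map_zero _
    simp only [d_const, mul_zero, h0, J_zero, add_zero, Finset.sum_const_zero, and_true]
    exact Int.zero
  · rintro a b ha hb ⟨h1, h2⟩ ⟨h3, h4⟩
    have e1 : ∀ q ∈ X, θ q * d (fun x => a x + b x) q = θ q * d a q + θ q * d b q := fun q hq => by
      rw [d_add ((ha q hq).differentiableAt (by simp)) ((hb q hq).differentiableAt (by simp)),
        mul_add]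
    refine ⟨Int.congr' hX (fun q hq => by rw [e1 q hq]) (h1.add h3), ?_⟩
    have e2 : ∀ i, pull (g i) (fun x => a x + b x) = fun y => pull (g i) a y + pull (g i) b y :=
      fun i => funext (pull_add _ _ _)
    simp only [mul_add, e2]
    rw [J_congr' hX e1, J_add' h1 h3, J_add hX ho
      (continuousOn_mul hc (continuousOn_of_contDiffAt ha))
      (continuousOn_mul hc (continuousOn_of_contDiffAt hb)), add_add_add_comm, h2, h4,
      ← Finset.sum_add_distrib]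
    refine Finset.sum_congr rfl fun i _ => ?_
    rw [J_add (hD i).clo (hD i).ori ((hD i).cont_pull ha) ((hD i).cont_pull hb), mul_add]
  · rintro a b hab ⟨h1, h2⟩
    have e1 : ∀ q ∈ X, θ q * d b q = θ q * d a q := fun q hq => by rw [d_congr (hab q hq)]
    refine ⟨Int.congr' hX (fun q hq => by rw [e1 q hq]) h1, ?_⟩
    rw [J_congr' hX e1, J_congr' (om' := fun q => c q * a q) hX
      fun q hq => by rw [(hab q hq).eq_of_nhds], h2]
    refine Finset.sum_congr rfl fun i _ => ?_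
    rw [J_congr' (hD i).clo fun y hy => ?_]
    rw [pull, pull, (hab _ ((hD i).smap.maps hy)).eq_of_nhds]
  · intro x hx
    obtain ⟨z, a, hz, hn⟩ := h x hx
    obtain ⟨N, hNo, hxN, hN⟩ := mem_nhdsWithin.1 hn
    choose U hU hS using fun i => (hz i).sing hX ho (hD i)
    refine ⟨N ∩ ⋂ i, U i, inter_mem (hNo.mem_nhds hxN) (iInter_mem.2 hU), fun ψ hψ hs => ?_⟩
    have hS' := fun i => hS i ψ hψ (hs.trans (inter_subset_right.trans (iInter_subset _ i)))
    obtain ⟨a1, a2, a3⟩ := J_mul_d (a := a) hX ho hψ fun q hq hq' =>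
      ⟨(hN ⟨(hs hq').1, hq⟩).1, (hN ⟨(hs hq').1, hq⟩).2.1⟩
    have e1 : ∀ q ∈ X, q ∉ ⋃ i, g i '' Y i → res X q (θ q * d ψ q)
        = res X q (∑ i, m i • (ang (z i) q * d ψ q) + a q * d ψ q) := by
      intro q hq hqZ
      by_cases hq' : q ∈ tsupport ψ
      · rw [map_mul, (hN ⟨(hs hq').1, hq⟩).2.2.2 fun i hi => hqZ (mem_iUnion.2 ⟨i, hi⟩), ← map_mul,
          add_mul, Finset.sum_mul]
        simp only [smul_mul_assoc]
      · simp [d_of_notMem hq']
    have i1 : Int (n + 2) X o fun q => ∑ i, m i • (ang (z i) q * d ψ q) :=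
      Int.sum _ fun i _ => (hS' i).1.smul _
    refine ⟨Int.congr hX hZ e1 (i1.add a1), ?_⟩
    rw [J_congr_ae hX hZ e1, J_add' i1 a1, J_sum' _ fun i _ => (hS' i).1.smul _, a3, add_left_comm,
      ← J_add' (Int.of_cont hX ho (continuousOn_mul hc (continuousOn_of_contDiffAt hψ))) a2,
      J_congr_res (b := fun _ => 0) hX, J_zero, add_zero]
    · exact Finset.sum_congr rfl fun i _ => by rw [J_smul, (hS' i).2]
    · intro q hq
      by_cases hq' : q ∈ tsupport ψ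
      · rw [← add_mul, map_mul, add_comm, (hN ⟨(hs hq').1, hq⟩).2.2.1, zero_mul, map_zero]
      · simp [image_eq_zero_of_notMem_tsupport hq']

/-- closed test forms -/
theorem PLd.closed (hX : Clo (n + 2) X) (ho : Ori (n + 2) X o)
    (hD : ∀ i, Dv n X (Y i) (oY i) (g i)) (h : PLd n X o Y oY g m θ c) (hc : ContinuousOn c X)
    (hφ : ∀ x ∈ X, ContDiffAt ℝ 1 φ x) (hcl : ∀ x ∈ X, res X x (d φ x) = 0) :
    J (n + 2) X o (fun q => c q * φ q) = ∑ i, m i * J n (Y i) (oY i) (pull (g i) φ) := by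
  rw [← (h.current hX ho hD hc hφ).2, J_congr_res (a := fun q => θ q * d φ q) (b := fun _ => 0) hX
    fun q hq => by rw [map_mul, hcl q hq, mul_zero, map_zero], J_zero, add_zero]

/-- the Thom form `c + d β`, `β = ρ θ`, against forms which are closed where `ρ ≠ 1` -/
theorem PLd.thom (hX : Clo (n + 2) X) (ho : Ori (n + 2) X o)
    (hD : ∀ i, Dv n X (Y i) (oY i) (g i)) (h : PLd n X o Y oY g m θ c) (hc : ContinuousOn c X)
    {β : E → Ext E} (hβ : ∀ x ∈ X, ContDiffAt ℝ 1 β x ∧ inv (β x) = - β x)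
    (hφ : ∀ x ∈ X, ContDiffAt ℝ 1 φ x)
    (hcl : ∀ x ∈ X, res X x (d φ x) = 0 ∨ res X x (β x) = res X x (θ x)) :
    J (n + 2) X o (fun q => (c q + d β q) * φ q)
      = ∑ i, m i * J n (Y i) (oY i) (pull (g i) φ) := by
  obtain ⟨-, a2, a3⟩ := J_mul_d (a := β) hX ho hφ fun q hq _ => hβ q hq
  simp only [add_mul]
  rw [J_add' (Int.of_cont hX ho (continuousOn_mul hc (continuousOn_of_contDiffAt hφ))) a2, ← a3,
    ← (h.current hX ho hD hc hφ).2]
  congr 1
  refine J_congr_res hX fun q hq => ?_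
  rcases hcl q hq with h1 | h1
  · rw [map_mul, map_mul, h1, mul_zero, mul_zero]
  · rw [map_mul, map_mul, h1]

/-! ### complex test forms -/

theorem JC_ofR_mul {k : ℕ} (τ : E → Ext E) (Φ : E → CF E) :
    JC k X o (fun q => Cx.ofR (τ q) * Φ q)
      = ⟨J k X o fun q => τ q * (Φ q).re, J k X o fun q => τ q * (Φ q).im⟩ := by
  simp [JC]

theorem sum_JC (Φ : E → CF E) : ∑ i, (m i : ℂ) * JC n (Y i) (oY i) (pullC (g i) Φ)
    = ⟨∑ i, m i * J n (Y i) (oY i) (pull (g i) fun q => (Φ q).re),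
      ∑ i, m i * J n (Y i) (oY i) (pull (g i) fun q => (Φ q).im)⟩ := by
  refine Complex.ext ?_ ?_
  · rw [Complex.re_sum]
    exact Finset.sum_congr rfl fun i _ => Complex.re_ofReal_mul _ _
  · rw [Complex.im_sum]
    exact Finset.sum_congr rfl fun i _ => Complex.im_ofReal_mul _ _

theorem PLd.thomC (hX : Clo (n + 2) X) (ho : Ori (n + 2) X o)
    (hD : ∀ i, Dv n X (Y i) (oY i) (g i)) (h : PLd n X o Y oY g m θ c) (hc : ContinuousOn c X)
    {β : E → Ext E} (hβ : ∀ x ∈ X, ContDiffAt ℝ 1 β x ∧ inv (β x) = - β x) {Φ : E → CF E}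
    (hΦ : ∀ x ∈ X, CD 1 Φ x)
    (hcl : ∀ x ∈ X, rs X x (dC Φ x) = 0 ∨ res X x (β x) = res X x (θ x)) :
    JC (n + 2) X o (fun q => Cx.ofR (c q + d β q) * Φ q)
      = ∑ i, (m i : ℂ) * JC n (Y i) (oY i) (pullC (g i) Φ) := by
  rw [JC_ofR_mul, sum_JC,
    h.thom hX ho hD hc hβ (fun x hx => (hΦ x hx).re)
      fun x hx => (hcl x hx).imp_left (congrArg Cx.re),
    h.thom hX ho hD hc hβ (fun x hx => (hΦ x hx).im)
      fun x hx => (hcl x hx).imp_left (congrArg Cx.im)]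

/-- **PL0**: `∫ c Φ = ∑ mᵢ ∫_{Yᵢ} Φ` for closed `Φ` -/
theorem PLd.closedC (hX : Clo (n + 2) X) (ho : Ori (n + 2) X o)
    (hD : ∀ i, Dv n X (Y i) (oY i) (g i)) (h : PLd n X o Y oY g m θ c) (hc : ContinuousOn c X)
    {Φ : E → CF E} (hΦ : Φ ∈ Z X) :
    JC (n + 2) X o (fun q => Cx.ofR (c q) * Φ q)
      = ∑ i, (m i : ℂ) * JC n (Y i) (oY i) (pullC (g i) Φ) := by
  rw [JC_ofR_mul, sum_JC,
    h.closed hX ho hD hc (fun x hx => (hΦ.2.1.cd1 hx).re)
      fun x hx => congrArg Cx.re (hΦ.2.2 x hx),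
    h.closed hX ho hD hc (fun x hx => (hΦ.2.1.cd1 hx).im)
      fun x hx => congrArg Cx.im (hΦ.2.2 x hx)]

end Crest.Agent.X262.PL
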