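import Crest.Agent.X262.PL.Div
import Crest.Agent.X262.Coh.Num
import Crest.Agent.X262.Man.Pt
import Crest.Agent.X262.PD.Th

/-!
# Row 262, PL (helper92), part Man: `MAN`, `PL0`, `BC1`, `BC2` for the de Rham theory
-/

set_option autoImplicit false

noncomputable section

namespace Crest.Agent.X262.PL

open Crest.Agent.R208.CW Crest.Agent.R208.T
open Crest.Agent.X262.Man Crest.Agent.X262.Coh

variable (typ : ∀ X : SV, ℕ → ℕ → Submodule ℂ (HP X.P)) (Lam : ∀ X : SV, AddSubgroup (HP X.P))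

theorem numIn : (thOf typ c1 Lam).NumIn where
  c1_add := c1Ax.add
  c1_pb := c1Ax.pb
  pl _ _ h y := pl0I h y
  bim _ h y := degB h y
  pt _ h := intP_one h
  pos _ h := intP_dg (k := 0) (Ne.symm h) one_mem_HD

theorem c1Num : C1Num c1 := (numIn (fun _ _ _ => ⊥) fun _ => ⊥).c1_num

theorem man_th : (thOf typ c1 Lam).MAN := man_of typ Lam c1Ax c1Num

theorem pl0_th : (thOf typ c1 Lam).PL0 := pl0 (PD.th_pd typ c1 Lam)

theorem bc1_th : (thOf typ c1 Lam).BC1 := bc1 (PD.th_pd typ c1 Lam)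

theorem bc2_th : (thOf typ c1 Lam).BC2 := bc2 (PD.th_pd typ c1 Lam)

end Crest.Agent.X262.PL
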